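import Mathlib.Analysis.Matrix.Spectrum
import Mathlib.Analysis.Normed.Algebra.MatrixExponential
import Mathlib.Analysis.SpecialFunctions.Log.Basic
import Mathlib.Analysis.Convex.SpecificFunctions.Basic
import Mathlib.Analysis.Convex.Jensen
import Mathlib.Analysis.SpecialFunctions.Trigonometric.DerivHyp
import Mathlib.LinearAlgebra.Matrix.Hermitian
import Mathlib.LinearAlgebra.Matrix.Kronecker
import Mathlib.Analysis.Complex.Exponential
import Mathlib.Analysis.Calculus.Deriv.MeanValue

/-! # Trace inequalities for Gibbs states of finite matrices -/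

namespace Vale.Agent.P361

open Matrix

noncomputable section

variable {ι : Type} [Fintype ι] [DecidableEq ι]

/-- `log Tr exp A`. -/
def logTr (A : Matrix ι ι ℂ) : ℝ := Real.log (NormedSpace.exp A).trace.re

/-- Gibbs expectation `Tr(exp A X) / Tr exp A`. -/
def gexp (A X : Matrix ι ι ℂ) : ℂ :=
  (NormedSpace.exp A * X).trace / (NormedSpace.exp A).trace

theorem exp_of_conj {A : Matrix ι ι ℂ} (U : Matrix ι ι ℂ) (hU : star U * U = 1) (d : ι → ℝ)
    (hA : A = U * diagonal (fun i => (d i : ℂ)) * star U) :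
    NormedSpace.exp A = U * diagonal (fun i => (Real.exp (d i) : ℂ)) * star U := by
  have hU' : U * star U = 1 := mul_eq_one_comm.mp hU
  let u : (Matrix ι ι ℂ)ˣ := ⟨U, star U, hU', hU⟩
  have := Matrix.exp_units_conj u (diagonal (fun i => (d i : ℂ)))
  simp only [u, Units.val_mk, Units.inv_mk] at this
  rw [hA, this, Matrix.exp_diagonal]
  congr 2
  congr 1
  funext i
  rw [Pi.coe_exp, Complex.ofReal_exp, Complex.exp_eq_exp_ℂ]

theorem trace_conj (U X : Matrix ι ι ℂ) (hU : star U * U = 1) :
    (U * X * star U).trace = X.trace := by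
  rw [Matrix.trace_mul_comm, ← mul_assoc, hU, one_mul]

theorem trace_exp_of_conj {A : Matrix ι ι ℂ} (U : Matrix ι ι ℂ) (hU : star U * U = 1)
    (d : ι → ℝ) (hA : A = U * diagonal (fun i => (d i : ℂ)) * star U) :
    (NormedSpace.exp A).trace = ((∑ i, Real.exp (d i) : ℝ) : ℂ) := by
  rw [exp_of_conj U hU d hA, trace_conj _ _ hU, trace_diagonal]
  push_cast
  rfl

theorem logTr_of_conj {A : Matrix ι ι ℂ} (U : Matrix ι ι ℂ) (hU : star U * U = 1)
    (d : ι → ℝ) (hA : A = U * diagonal (fun i => (d i : ℂ)) * star U) :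
    logTr A = Real.log (∑ i, Real.exp (d i)) := by
  rw [logTr, trace_exp_of_conj U hU d hA, Complex.ofReal_re]

theorem herm_decomp {A : Matrix ι ι ℂ} (hA : A.IsHermitian) :
    ∃ (U : Matrix ι ι ℂ) (d : ι → ℝ), star U * U = 1 ∧
      A = U * diagonal (fun i => (d i : ℂ)) * star U := by
  refine ⟨hA.eigenvectorUnitary, hA.eigenvalues, ?_, ?_⟩
  · exact Unitary.star_mul_self_of_mem hA.eigenvectorUnitary.2
  · conv_lhs => rw [hA.spectral_theorem, Unitary.conjStarAlgAut_apply]
    rfl

/-- The Gibbs weights. -/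
def gw (d : ι → ℝ) (i : ι) : ℝ := Real.exp (d i) / ∑ j, Real.exp (d j)

theorem gw_nonneg (d : ι → ℝ) (i : ι) : 0 ≤ gw d i := by
  unfold gw; positivity

theorem gexp_of_conj {A : Matrix ι ι ℂ} (U : Matrix ι ι ℂ) (hU : star U * U = 1)
    (d : ι → ℝ) (hA : A = U * diagonal (fun i => (d i : ℂ)) * star U) (X : Matrix ι ι ℂ) :
    gexp A X = ∑ i, (gw d i : ℂ) * (star U * X * U) i i := by
  rw [gexp, trace_exp_of_conj U hU d hA, exp_of_conj U hU d hA]
  have : (U * diagonal (fun i => (Real.exp (d i) : ℂ)) * star U * X).trace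
      = (diagonal (fun i => (Real.exp (d i) : ℂ)) * (star U * X * U)).trace := by
    calc (U * diagonal (fun i => (Real.exp (d i) : ℂ)) * star U * X).trace
        = (U * (diagonal (fun i => (Real.exp (d i) : ℂ)) * star U * X)).trace := by
          simp only [mul_assoc]
      _ = _ := by rw [Matrix.trace_mul_comm]; simp only [mul_assoc]
  rw [this, Matrix.trace, Finset.sum_div]
  refine Finset.sum_congr rfl fun i _ => ?_
  rw [diag_apply, diagonal_mul, gw]
  push_cast
  ring

theorem sum_gw [Nonempty ι] (d : ι → ℝ) : ∑ i, gw d i = 1 := by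
  unfold gw
  rw [← Finset.sum_div, div_self]
  positivity

theorem gexp_add (A X Y : Matrix ι ι ℂ) : gexp A (X + Y) = gexp A X + gexp A Y := by
  simp [gexp, mul_add, add_div]

theorem gexp_sub (A X Y : Matrix ι ι ℂ) : gexp A (X - Y) = gexp A X - gexp A Y := by
  simp [gexp, mul_sub, sub_div]

theorem gexp_smul (A X : Matrix ι ι ℂ) (c : ℂ) : gexp A (c • X) = c * gexp A X := by
  simp [gexp, mul_div_assoc]

theorem gexp_neg (A X : Matrix ι ι ℂ) : gexp A (-X) = -gexp A X := by
  simp [gexp, neg_div]

theorem gexp_zero (A : Matrix ι ι ℂ) : gexp A 0 = 0 := by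
  simp [gexp]

theorem gexp_sum {κ : Type*} (A : Matrix ι ι ℂ) (s : Finset κ) (X : κ → Matrix ι ι ℂ) :
    gexp A (∑ k ∈ s, X k) = ∑ k ∈ s, gexp A (X k) := by
  simp [gexp, Finset.mul_sum, trace_sum, Finset.sum_div]

theorem gexp_one [Nonempty ι] {A : Matrix ι ι ℂ} (hA : A.IsHermitian) : gexp A 1 = 1 := by
  obtain ⟨U, d, hU, h⟩ := herm_decomp hA
  rw [gexp_of_conj U hU d h, mul_one, hU]
  simp [← Complex.ofReal_sum, sum_gw]

theorem gexp_star_mul_self_nonneg {A : Matrix ι ι ℂ} (hA : A.IsHermitian) (B : Matrix ι ι ℂ) :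
    0 ≤ (gexp A (star B * B)).re := by
  obtain ⟨U, d, hU, h⟩ := herm_decomp hA
  rw [gexp_of_conj U hU d h, Complex.re_sum]
  refine Finset.sum_nonneg fun i _ => ?_
  rw [Complex.re_ofReal_mul]
  refine mul_nonneg (gw_nonneg d i) ?_
  have : star U * (star B * B) * U = star (B * U) * (B * U) := by
    simp only [star_mul, mul_assoc]
  rw [this, Matrix.mul_apply, Complex.re_sum]
  refine Finset.sum_nonneg fun k _ => ?_
  rw [star_apply, Complex.star_def, ← Complex.normSq_eq_conj_mul_self, Complex.ofReal_re]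
  exact Complex.normSq_nonneg _

/-- The Peierls–Bogoliubov inequality. -/
theorem logTr_add_gexp_le [Nonempty ι] {A B : Matrix ι ι ℂ} (hA : A.IsHermitian)
    (hB : B.IsHermitian) : logTr A + (gexp A (B - A)).re ≤ logTr B := by
  obtain ⟨U, a, hU, hAd⟩ := herm_decomp hA
  obtain ⟨V, b, hV, hBd⟩ := herm_decomp hB
  set W := star V * U with hW
  set e : ι → ℝ := fun i => ∑ k, Complex.normSq (W k i) * b k with he
  have hWW : star W * W = 1 := by
    rw [hW, star_mul, star_star, mul_assoc, ← mul_assoc V, mul_eq_one_comm.mp hV, one_mul, hU]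
  have hWW' : W * star W = 1 := mul_eq_one_comm.mp hWW
  have hcol : ∀ i, ∑ k, Complex.normSq (W k i) = 1 := by
    intro i
    have := congrArg (fun M : Matrix ι ι ℂ => (M i i).re) hWW
    simp only [Matrix.mul_apply, star_apply, Complex.star_def, Complex.re_sum,
      ← Complex.normSq_eq_conj_mul_self, Complex.ofReal_re, one_apply_eq, Complex.one_re] at this
    exact this
  have hrow : ∀ k, ∑ i, Complex.normSq (W k i) = 1 := by
    intro k
    have := congrArg (fun M : Matrix ι ι ℂ => (M k k).re) hWW'
    simp only [Matrix.mul_apply, star_apply, Complex.star_def, Complex.re_sum,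
      Complex.mul_conj, Complex.ofReal_re, one_apply_eq, Complex.one_re] at this
    exact this
  have hBU : ∀ i, ((star U * B * U) i i).re = e i := by
    intro i
    have : star U * B * U = star W * diagonal (fun k => (b k : ℂ)) * W := by
      rw [hW, star_mul, star_star, hBd]; simp only [mul_assoc]
    rw [this, Matrix.mul_apply, Complex.re_sum]
    refine Finset.sum_congr rfl fun k _ => ?_
    rw [mul_diagonal, star_apply, Complex.star_def]
    simp only [Complex.mul_re, Complex.mul_im, Complex.conj_re, Complex.conj_im,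
      Complex.ofReal_re, Complex.ofReal_im, Complex.normSq_apply]
    ring
  have hsum : ∑ i, Real.exp (e i) ≤ ∑ k, Real.exp (b k) := by
    calc ∑ i, Real.exp (e i) ≤ ∑ i, ∑ k, Complex.normSq (W k i) * Real.exp (b k) := by
          refine Finset.sum_le_sum fun i _ => ?_
          have := convexOn_exp.map_sum_le (t := Finset.univ)
            (w := fun k => Complex.normSq (W k i)) (p := b)
            (fun k _ => Complex.normSq_nonneg _) (hcol i) (fun k _ => Set.mem_univ _)
          simpa [he, smul_eq_mul] using this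
      _ = _ := by
          rw [Finset.sum_comm]
          refine Finset.sum_congr rfl fun k _ => ?_
          rw [← Finset.sum_mul, hrow, one_mul]
  have hg : (gexp A (B - A)).re = ∑ i, gw a i * (e i - a i) := by
    rw [gexp_of_conj U hU a hAd, Complex.re_sum]
    refine Finset.sum_congr rfl fun i _ => ?_
    rw [Complex.re_ofReal_mul, mul_sub, sub_mul, Matrix.sub_apply, Complex.sub_re, hBU]
    congr 2
    rw [hAd, ← mul_assoc, ← mul_assoc, hU, one_mul, mul_assoc, hU, mul_one, diagonal_apply_eq,
      Complex.ofReal_re]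
  rw [logTr_of_conj U hU a hAd, logTr_of_conj V hV b hBd, hg]
  have hpos : 0 < ∑ i, Real.exp (a i) := by positivity
  have key : (∑ i, Real.exp (a i)) * Real.exp (∑ i, gw a i * (e i - a i))
      ≤ ∑ i, Real.exp (e i) := by
    have := convexOn_exp.map_sum_le (t := Finset.univ) (w := gw a) (p := fun i => e i - a i)
      (fun k _ => gw_nonneg a k) (sum_gw a) (fun k _ => Set.mem_univ _)
    simp only [smul_eq_mul] at this
    refine (mul_le_mul_of_nonneg_left this hpos.le).trans (le_of_eq ?_)
    rw [Finset.mul_sum]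
    refine Finset.sum_congr rfl fun i _ => ?_
    rw [gw, Real.exp_sub]
    field_simp
  have := Real.log_le_log (by positivity) (key.trans hsum)
  rwa [Real.log_mul hpos.ne' (Real.exp_pos _).ne', Real.log_exp] at this

theorem logTr_le_of_bound [Nonempty ι] {A B : Matrix ι ι ℂ} (hA : A.IsHermitian)
    (hB : B.IsHermitian) (C : ℝ)
    (h : ∀ D : Matrix ι ι ℂ, D.IsHermitian → |(gexp D (B - A)).re| ≤ C) :
    |logTr B - logTr A| ≤ C := by
  have h1 := logTr_add_gexp_le hA hB
  have h2 := logTr_add_gexp_le hB hA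
  have h3 := abs_le.mp (h A hA)
  have h4 := abs_le.mp (h B hB)
  rw [show A - B = -(B - A) by abel, gexp_neg, Complex.neg_re] at h2
  rw [abs_le]
  constructor <;> linarith

theorem sinh_le_mul_cosh {s : ℝ} (hs : 0 ≤ s) : Real.sinh s ≤ s * Real.cosh s := by
  have hd : ∀ t : ℝ, HasDerivAt (fun t => t * Real.cosh t - Real.sinh t) (t * Real.sinh t) t := by
    intro t
    have := ((hasDerivAt_id t).mul (Real.hasDerivAt_cosh t)).sub (Real.hasDerivAt_sinh t)
    convert this using 1
    all_goals first | rfl | (simp only [id_eq]; ring)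
  have hmono : MonotoneOn (fun t => t * Real.cosh t - Real.sinh t) (Set.Ici 0) := by
    refine monotoneOn_of_deriv_nonneg (convex_Ici 0) (fun t _ => (hd t).continuousAt.continuousWithinAt)
      (fun t _ => (hd t).differentiableAt.differentiableWithinAt) ?_
    intro t ht
    rw [interior_Ici] at ht
    rw [(hd t).deriv]
    exact mul_nonneg (le_of_lt ht) (Real.sinh_nonneg_iff.mpr (le_of_lt ht))
  have := hmono Set.self_mem_Ici (Set.mem_Ici.mpr hs) hs
  simpa using this

theorem tangent_ineq {x a : ℝ} (ha : 0 ≤ a) :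
    0 ≤ x * Real.tanh x - (a + Real.sinh a * Real.cosh a) * Real.tanh x + Real.sinh a ^ 2 := by
  have hc := Real.cosh_pos x
  suffices h : 0 ≤ (x - a) * Real.sinh x - Real.sinh a * Real.sinh (x - a) by
    have e : x * Real.tanh x - (a + Real.sinh a * Real.cosh a) * Real.tanh x + Real.sinh a ^ 2
        = ((x - a) * Real.sinh x - Real.sinh a * Real.sinh (x - a)) / Real.cosh x := by
      rw [Real.tanh_eq_sinh_div_cosh, Real.sinh_sub]
      field_simp
      ring
    rw [e]; positivity
  set t := x - a with ht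
  have hx : x = a + t := by ring
  rw [hx, Real.sinh_add]
  have hsa : 0 ≤ Real.sinh a := Real.sinh_nonneg_iff.mpr ha
  have hac : Real.sinh a ≤ Real.cosh a := (Real.sinh_lt_cosh a).le
  have key : ∀ s : ℝ, 0 ≤ s → |s * Real.cosh s - Real.sinh s| ≤ s * Real.sinh s := by
    intro s hs
    have h1 : s ≤ Real.sinh s := Real.self_le_sinh_iff.mpr hs
    have h2 : 0 ≤ Real.cosh s - Real.sinh s ∧ Real.cosh s - Real.sinh s ≤ 1 := by
      rw [Real.cosh_sub_sinh]
      exact ⟨(Real.exp_pos _).le, Real.exp_le_one_iff.mpr (by linarith)⟩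
    have h3 : Real.sinh s ≤ s * Real.cosh s := by
      have := sinh_le_mul_cosh hs
      linarith
    rw [abs_le]
    constructor
    · nlinarith [mul_nonneg hs (hs.trans h1)]
    · nlinarith [mul_nonneg hs (sub_nonneg.mpr h2.2)]
  have key' : ∀ s : ℝ, |s * Real.cosh s - Real.sinh s| ≤ s * Real.sinh s := by
    intro s
    rcases le_or_gt 0 s with hs | hs
    · exact key s hs
    · have := key (-s) (by linarith)
      simp only [Real.cosh_neg, Real.sinh_neg, neg_mul, mul_neg, neg_neg] at this
      rwa [show -(s * Real.cosh s) - -Real.sinh s = -(s * Real.cosh s - Real.sinh s) by ring,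
        abs_neg] at this
  have hk := key' t
  have hts : 0 ≤ t * Real.sinh t := (abs_nonneg _).trans hk
  have := mul_le_mul hac hk (abs_nonneg _) (Real.cosh_pos a).le
  nlinarith [neg_abs_le (t * Real.cosh t - Real.sinh t),
    mul_le_mul_of_nonneg_left (neg_abs_le (t * Real.cosh t - Real.sinh t)) hsa]

theorem exp_sub_eq_tanh (u v : ℝ) :
    Real.exp u - Real.exp v = (Real.exp u + Real.exp v) * Real.tanh ((u - v) / 2) := by
  have h1 : Real.exp u = Real.exp ((u + v) / 2) * Real.exp ((u - v) / 2) := by
    rw [← Real.exp_add]; ring_nf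
  have h2 : Real.exp v = Real.exp ((u + v) / 2) * Real.exp (-((u - v) / 2)) := by
    rw [← Real.exp_add]; ring_nf
  rw [h1, h2, Real.tanh_eq]
  field_simp

/-- A sharpened Bogoliubov inequality. -/
theorem bogoliubov {A : Matrix ι ι ℂ} (hA : A.IsHermitian) (X : Matrix ι ι ℂ) {a : ℝ}
    (ha : 0 < a)
    (h : (gexp A (star X * (X * A - A * X) - (X * A - A * X) * star X)).re
      ≤ 2 * a * (gexp A (X * star X - star X * X)).re) :
    (gexp A (X * star X - star X * X)).re * Real.cosh a
      ≤ (gexp A (X * star X + star X * X)).re * Real.sinh a := by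
  obtain ⟨U, d, hU, hAd⟩ := herm_decomp hA
  have hU' : U * star U = 1 := mul_eq_one_comm.mp hU
  set Y := star U * X * U with hY
  set D : Matrix ι ι ℂ := diagonal (fun i => (d i : ℂ)) with hD
  have cancel : ∀ P : Matrix ι ι ℂ, U * (star U * P) = P := fun P => by
    rw [← mul_assoc, hU', one_mul]
  have cancel' : ∀ P : Matrix ι ι ℂ, star U * (U * P) = P := fun P => by
    rw [← mul_assoc, hU, one_mul]
  have hYs : star Y = star U * star X * U := by simp [hY, mul_assoc]
  have hYA : star U * (X * A - A * X) * U = Y * D - D * Y := by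
    rw [hY, hAd, mul_sub, sub_mul]
    simp only [mul_assoc, cancel', hU, mul_one]
  set q : ι → ι → ℝ := fun i j => Complex.normSq (Y i j) with hq
  have c1 : star U * (X * star X) * U = Y * star Y := by
    simp [hY, mul_assoc, cancel]
  have c2 : star U * (star X * X) * U = star Y * Y := by
    simp [hY, mul_assoc, cancel]
  have c3 : star U * (star X * (X * A - A * X)) * U = star Y * (Y * D - D * Y) := by
    rw [← hYA, hYs]; simp [mul_assoc, cancel]
  have c4 : star U * ((X * A - A * X) * star X) * U = (Y * D - D * Y) * star Y := by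
    rw [← hYA, hYs]; simp [mul_assoc, cancel]
  have e1 : ∀ i, ((Y * star Y) i i).re = ∑ j, q i j := by
    intro i
    simp [Matrix.mul_apply, star_apply, Complex.re_sum, hq, Complex.normSq_apply]
  have e2 : ∀ i, ((star Y * Y) i i).re = ∑ j, q j i := by
    intro i
    simp [Matrix.mul_apply, star_apply, Complex.re_sum, hq, Complex.normSq_apply]
  have e3 : ∀ i, ((star Y * (Y * D - D * Y)) i i).re = ∑ j, q j i * (d i - d j) := by
    intro i
    simp only [Matrix.mul_apply (M := star Y), Complex.re_sum]
    refine Finset.sum_congr rfl fun j _ => ?_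
    rw [star_apply, Complex.star_def, Matrix.sub_apply, hD, mul_diagonal, diagonal_mul]
    simp [hq, Complex.normSq_apply]
    ring
  have e4 : ∀ i, (((Y * D - D * Y) * star Y) i i).re = ∑ j, q i j * (d j - d i) := by
    intro i
    simp only [Matrix.mul_apply (N := star Y), Complex.re_sum]
    refine Finset.sum_congr rfl fun j _ => ?_
    rw [star_apply, Complex.star_def, Matrix.sub_apply, hD, mul_diagonal, diagonal_mul]
    simp [hq, Complex.normSq_apply]
    ring
  set p := gw d with hp
  set g : ℝ := ∑ i, ∑ j, q i j * (p i + p j) with hg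
  set m : ℝ := ∑ i, ∑ j, q i j * (p i - p j) with hm
  set c : ℝ := ∑ i, ∑ j, q i j * ((d j - d i) * (p j - p i)) with hc
  have swap : ∀ f : ι → ι → ℝ, (∑ i, p i * ∑ j, q j i * f i j)
      = ∑ i, ∑ j, q i j * (p j * f j i) := by
    intro f
    simp only [Finset.mul_sum]
    rw [Finset.sum_comm]
    exact Finset.sum_congr rfl fun i _ => Finset.sum_congr rfl fun j _ => by ring
  have v1 : (gexp A (X * star X)).re = ∑ i, ∑ j, q i j * p i := by
    rw [gexp_of_conj U hU d hAd, Complex.re_sum]
    refine Finset.sum_congr rfl fun i _ => ?_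
    rw [Complex.re_ofReal_mul, c1, e1, Finset.mul_sum]
    exact Finset.sum_congr rfl fun j _ => mul_comm _ _
  have v2 : (gexp A (star X * X)).re = ∑ i, ∑ j, q i j * p j := by
    rw [gexp_of_conj U hU d hAd, Complex.re_sum]
    simp only [Complex.re_ofReal_mul, c2, e2]
    simpa using swap (fun _ _ => 1)
  have v3 : (gexp A (star X * (X * A - A * X))).re = ∑ i, ∑ j, q i j * (p j * (d j - d i)) := by
    rw [gexp_of_conj U hU d hAd, Complex.re_sum]
    simp only [Complex.re_ofReal_mul, c3, e3]
    exact swap (fun i j => d i - d j)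
  have v4 : (gexp A ((X * A - A * X) * star X)).re
      = ∑ i, ∑ j, q i j * (p i * (d j - d i)) := by
    rw [gexp_of_conj U hU d hAd, Complex.re_sum]
    refine Finset.sum_congr rfl fun i _ => ?_
    rw [Complex.re_ofReal_mul, c4, e4, Finset.mul_sum]
    exact Finset.sum_congr rfl fun j _ => by ring
  have G : (gexp A (X * star X + star X * X)).re = g := by
    rw [gexp_add, Complex.add_re, v1, v2, hg]
    simp only [← Finset.sum_add_distrib, mul_add]
  have M : (gexp A (X * star X - star X * X)).re = m := by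
    rw [gexp_sub, Complex.sub_re, v1, v2, hm]
    simp only [← Finset.sum_sub_distrib, mul_sub]
  have C : (gexp A (star X * (X * A - A * X) - (X * A - A * X) * star X)).re = c := by
    rw [gexp_sub, Complex.sub_re, v3, v4, hc]
    simp only [← Finset.sum_sub_distrib]
    exact Finset.sum_congr rfl fun i _ => Finset.sum_congr rfl fun j _ => by ring
  rw [C, M] at h
  rw [G, M]
  have pw : ∀ i j, 0 ≤ q i j * ((d j - d i) * (p j - p i)) / 2
      - (a + Real.sinh a * Real.cosh a) * (q i j * (p i - p j))
      + Real.sinh a ^ 2 * (q i j * (p i + p j)) := by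
    intro i j
    have ht : p i - p j = (p i + p j) * Real.tanh ((d i - d j) / 2) := by
      simp only [hp, gw, ← add_div, ← sub_div, div_mul_eq_mul_div, exp_sub_eq_tanh (d i) (d j)]
    have h0 := tangent_ineq (x := (d i - d j) / 2) ha.le
    have hqp : 0 ≤ q i j * (p i + p j) :=
      mul_nonneg (Complex.normSq_nonneg _) (add_nonneg (gw_nonneg d i) (gw_nonneg d j))
    have := mul_nonneg hqp h0
    have hji : p j - p i = -(p i - p j) := by ring
    rw [hji, ht]
    linarith
  have tot : 0 ≤ c / 2 - (a + Real.sinh a * Real.cosh a) * m + Real.sinh a ^ 2 * g := by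
    have := Finset.sum_nonneg (s := Finset.univ)
      (fun i _ => Finset.sum_nonneg (s := Finset.univ) (fun j _ => pw i j))
    simpa only [Finset.sum_add_distrib, Finset.sum_sub_distrib, ← Finset.sum_div,
      ← Finset.mul_sum, ← hc, ← hm, ← hg] using this
  have hs : 0 < Real.sinh a := Real.sinh_pos_iff.mpr ha
  nlinarith [tot, h]

theorem transpose_gexp {A : Matrix ι ι ℂ} (hA : Aᵀ = A) (X : Matrix ι ι ℂ) :
    gexp A Xᵀ = gexp A X := by
  unfold gexp
  congr 1
  have h1 : (NormedSpace.exp A)ᵀ = NormedSpace.exp A := by rw [← Matrix.exp_transpose, hA]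
  calc (NormedSpace.exp A * Xᵀ).trace = ((NormedSpace.exp A)ᵀ * Xᵀ).trace := by rw [h1]
    _ = (X * NormedSpace.exp A).trace := by rw [← transpose_mul, trace_transpose]
    _ = _ := Matrix.trace_mul_comm _ _

end

end Vale.Agent.P361
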