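import Vale.Agent.P361.Defs
import Vale.Agent.P361.Trace

/-! # Algebra of spin operators on tensor products -/

namespace Vale.Agent.P361

open Matrix

noncomputable section

section SiteOp

variable {V α : Type} [Fintype V] [DecidableEq V] [DecidableEq α]

/-- Tensor product of one operator per site. -/
def tensor (X : V → Matrix α α ℂ) : Matrix (V → α) (V → α) ℂ :=
  fun σ τ => ∏ v, X v (σ v) (τ v)

theorem tensor_mul [Fintype α] (X Y : V → Matrix α α ℂ) :
    tensor X * tensor Y = tensor fun v => X v * Y v := by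
  ext σ τ
  simp only [tensor, Matrix.mul_apply, ← Finset.prod_mul_distrib, Fintype.prod_sum]

theorem siteOp_eq_tensor (x : V) (A : Matrix α α ℂ) :
    siteOp x A = tensor (Function.update (fun _ => 1) x A) := by
  ext σ τ
  unfold siteOp tensor
  rw [← Finset.mul_prod_erase Finset.univ _ (Finset.mem_univ x), Function.update_self]
  split_ifs with h
  · rw [Finset.prod_eq_one, mul_one]
    intro v hv
    rw [Function.update_of_ne (Finset.ne_of_mem_erase hv), h v (Finset.ne_of_mem_erase hv)]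
    exact one_apply_eq _
  · push Not at h
    obtain ⟨y, hy, hne⟩ := h
    rw [Finset.prod_eq_zero (Finset.mem_erase.mpr ⟨hy, Finset.mem_univ y⟩), mul_zero]
    rw [Function.update_of_ne hy]
    exact one_apply_ne hne

variable (x : V)

theorem siteOp_add (A B : Matrix α α ℂ) : siteOp x (A + B) = siteOp x A + siteOp x B := by
  ext σ τ; simp only [siteOp, Matrix.add_apply]; split_ifs <;> simp

theorem siteOp_sub (A B : Matrix α α ℂ) : siteOp x (A - B) = siteOp x A - siteOp x B := by
  ext σ τ; simp only [siteOp, Matrix.sub_apply]; split_ifs <;> simp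

theorem siteOp_smul (c : ℂ) (A : Matrix α α ℂ) : siteOp x (c • A) = c • siteOp x A := by
  ext σ τ; simp only [siteOp, Matrix.smul_apply]; split_ifs <;> simp

theorem siteOp_one : siteOp x (1 : Matrix α α ℂ) = 1 := by
  ext σ τ
  simp only [siteOp, Matrix.one_apply]
  by_cases h : σ = τ
  · subst h; simp
  · rw [if_neg h]
    split_ifs with h1 h2
    · exact absurd (funext fun y => if hy : y = x then hy ▸ h2 else h1 y hy) h
    · rfl
    · rfl

theorem siteOp_conjTranspose (A : Matrix α α ℂ) : (siteOp x A)ᴴ = siteOp x Aᴴ := by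
  ext σ τ
  simp only [conjTranspose_apply, siteOp]
  by_cases h : ∀ y, y ≠ x → σ y = τ y
  · rw [if_pos h, if_pos (fun y hy => (h y hy).symm)]
  · rw [if_neg h, if_neg (fun h' => h fun y hy => (h' y hy).symm), star_zero]

theorem star_siteOp (A : Matrix α α ℂ) : star (siteOp x A) = siteOp x (star A) :=
  siteOp_conjTranspose x A

theorem siteOp_transpose (A : Matrix α α ℂ) : (siteOp x A)ᵀ = siteOp x Aᵀ := by
  ext σ τ
  simp only [transpose_apply, siteOp]
  by_cases h : ∀ y, y ≠ x → σ y = τ y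
  · rw [if_pos h, if_pos (fun y hy => (h y hy).symm)]
  · rw [if_neg h, if_neg (fun h' => h fun y hy => (h' y hy).symm)]

theorem siteOp_diagonal (f : α → ℂ) : siteOp x (diagonal f) = diagonal fun σ : V → α => f (σ x) := by
  ext σ τ
  simp only [siteOp, diagonal_apply]
  by_cases h : σ = τ
  · subst h; simp
  · rw [if_neg h]
    split_ifs with h1 h2
    · exact absurd (funext fun y => if hy : y = x then hy ▸ h2 else h1 y hy) h
    · rfl
    · rfl

theorem siteOp_mul [Fintype α] (A B : Matrix α α ℂ) :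
    siteOp x A * siteOp x B = siteOp x (A * B) := by
  rw [siteOp_eq_tensor, siteOp_eq_tensor, siteOp_eq_tensor, tensor_mul]
  congr 1
  funext v
  by_cases h : v = x
  · subst h; simp
  · simp [Function.update_of_ne h]

theorem siteOp_comm [Fintype α] {x y : V} (h : x ≠ y) (A B : Matrix α α ℂ) :
    siteOp x A * siteOp y B = siteOp y B * siteOp x A := by
  rw [siteOp_eq_tensor, siteOp_eq_tensor, tensor_mul, tensor_mul]
  congr 1
  funext v
  by_cases hx : v = x
  · subst hx; simp [Function.update_of_ne h]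
  · simp [Function.update_of_ne hx]

end SiteOp

section Single

variable (n : ℕ)

/-- The Schwinger-boson factor `√(S + S³)`. -/
def pMat : Matrix (Fin (n + 1)) (Fin (n + 1)) ℂ :=
  diagonal fun i => ((Real.sqrt ((n : ℝ) - (i : ℕ))) : ℂ)

/-- The Schwinger-boson lowering factor. -/
def qMat : Matrix (Fin (n + 1)) (Fin (n + 1)) ℂ :=
  fun a b => if (a : ℕ) + 1 = (b : ℕ) then ((Real.sqrt ((b : ℕ) : ℝ)) : ℂ) else 0

theorem spin_two : spin n 2 = diagonal fun i : Fin (n + 1) => (n : ℂ) / 2 - ((i : ℕ) : ℂ) := rfl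

theorem spin_two_real : spin n 2 = diagonal fun i : Fin (n + 1) => (((n : ℝ) / 2 - (i : ℕ) : ℝ) : ℂ) := by
  rw [spin_two]; push_cast; rfl

theorem star_spin_two : star (spin n 2) = spin n 2 := by
  rw [spin_two_real, star_eq_conjTranspose, diagonal_conjTranspose]
  congr 1; funext i; simp

theorem pMat_star : star (pMat n) = pMat n := by
  rw [pMat, star_eq_conjTranspose, diagonal_conjTranspose]
  congr 1; funext i; simp

theorem pMat_sq : pMat n * pMat n = ((n : ℂ) / 2) • 1 + spin n 2 := by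
  rw [pMat, spin_two, diagonal_mul_diagonal, ← diagonal_one, ← diagonal_smul, diagonal_add]
  congr 1; funext i
  have : (i : ℕ) ≤ n := by omega
  rw [← Complex.ofReal_mul, Real.mul_self_sqrt (by
    rw [sub_nonneg]; exact_mod_cast this)]
  simp; ring

theorem col_product (f g : Fin (n + 1) → ℂ) (f0 : ∀ b : Fin (n + 1), (b : ℕ) = 0 → f b * g b = 0) :
    (Matrix.of (fun b a : Fin (n + 1) => if (a : ℕ) + 1 = (b : ℕ) then f b else 0) *
      Matrix.of (fun a b : Fin (n + 1) => if (a : ℕ) + 1 = (b : ℕ) then g b else 0))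
      = diagonal fun b => f b * g b := by
  ext b c
  simp only [Matrix.mul_apply, diagonal_apply, Matrix.of_apply]
  by_cases hbc : b = c
  · subst hbc
    rw [if_pos rfl]
    by_cases hb : (b : ℕ) = 0
    · rw [f0 b hb]
      exact Finset.sum_eq_zero fun a _ => by rw [if_neg (by omega)]; simp
    · rw [Finset.sum_eq_single ⟨(b : ℕ) - 1, by omega⟩]
      · rw [if_pos (by simp; omega), if_pos (by simp; omega)]
      · intro a _ ha
        rw [if_neg (fun h => ha (Fin.ext (by simp; omega)))]; simp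
      · simp
  · rw [if_neg hbc]
    refine Finset.sum_eq_zero fun a _ => ?_
    split_ifs with h1 h2 <;> simp
    exact absurd (Fin.ext (by omega)) hbc

theorem row_product (f g : Fin (n + 1) → ℂ) (f0 : ∀ a : Fin (n + 1), (a : ℕ) = n → f a * g a = 0) :
    (Matrix.of (fun a b : Fin (n + 1) => if (a : ℕ) + 1 = (b : ℕ) then f a else 0) *
      Matrix.of (fun b a : Fin (n + 1) => if (a : ℕ) + 1 = (b : ℕ) then g a else 0))
      = diagonal fun a => f a * g a := by
  ext a c
  simp only [Matrix.mul_apply, diagonal_apply, Matrix.of_apply]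
  by_cases hac : a = c
  · subst hac
    rw [if_pos rfl]
    by_cases ha : (a : ℕ) = n
    · rw [f0 a ha]
      exact Finset.sum_eq_zero fun b _ => by rw [if_neg (by omega)]; simp
    · rw [Finset.sum_eq_single ⟨(a : ℕ) + 1, by omega⟩]
      · simp
      · intro b _ hb
        rw [if_neg (fun h => hb (Fin.ext (by simp; omega)))]; simp
      · simp
  · rw [if_neg hac]
    refine Finset.sum_eq_zero fun b _ => ?_
    split_ifs with h1 h2 <;> simp
    exact absurd (Fin.ext (by omega)) hac

theorem qMat_star_eq : star (qMat n)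
    = Matrix.of fun b a : Fin (n + 1) => if (a : ℕ) + 1 = (b : ℕ) then ((Real.sqrt ((b : ℕ) : ℝ)) : ℂ) else 0 := by
  ext b a
  rw [star_apply, qMat, Matrix.of_apply]
  split_ifs <;> simp

theorem qMat_sq : star (qMat n) * qMat n = ((n : ℂ) / 2) • 1 - spin n 2 := by
  rw [qMat_star_eq]
  have := col_product n (fun b => ((Real.sqrt ((b : ℕ) : ℝ)) : ℂ))
    (fun b => ((Real.sqrt ((b : ℕ) : ℝ)) : ℂ)) (fun b hb => by simp [hb])
  refine this.trans ?_
  rw [spin_two, ← diagonal_one, ← diagonal_smul, diagonal_sub]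
  congr 1; funext i
  rw [← Complex.ofReal_mul, Real.mul_self_sqrt (by positivity)]
  simp

theorem pMat_mul_qMat : pMat n * qMat n = splus n := by
  ext a b
  rw [pMat, diagonal_mul, qMat, splus]
  split_ifs with h
  · rw [← Complex.ofReal_mul, ← Real.sqrt_mul (by
      rw [sub_nonneg]; exact_mod_cast (show (a : ℕ) ≤ n by omega))]
    congr 2
    have : ((b : ℕ) : ℝ) = (a : ℕ) + 1 := by exact_mod_cast h.symm
    rw [this]; ring
  · simp

theorem qMat_mul_pMat : star (qMat n) * pMat n = star (splus n) := by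
  rw [← pMat_mul_qMat, star_mul, pMat_star]

theorem splus_transpose : (splus n)ᵀ = star (splus n) := by
  ext a b
  rw [transpose_apply, star_apply, splus]
  split_ifs <;> simp

theorem star_splus_transpose : (star (splus n))ᵀ = splus n := by
  rw [← splus_transpose, transpose_transpose]

theorem splus_star_eq : star (splus n)
    = Matrix.of fun b a : Fin (n + 1) => if (a : ℕ) + 1 = (b : ℕ) then
        ((Real.sqrt ((b : ℕ) * ((n : ℝ) + 1 - (b : ℕ)))) : ℂ) else 0 := by
  ext b a
  rw [star_apply, splus, Matrix.of_apply]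
  split_ifs <;> simp

theorem splus_minus_plus : star (splus n) * splus n
    = diagonal fun b : Fin (n + 1) => ((((b : ℕ) : ℝ) * ((n : ℝ) + 1 - (b : ℕ)) : ℝ) : ℂ) := by
  rw [splus_star_eq]
  have := col_product n
    (fun b => ((Real.sqrt ((b : ℕ) * ((n : ℝ) + 1 - (b : ℕ)))) : ℂ))
    (fun b => ((Real.sqrt ((b : ℕ) * ((n : ℝ) + 1 - (b : ℕ)))) : ℂ))
    (fun b hb => by simp [hb])
  refine this.trans ?_
  congr 1; funext b
  have hb : ((b : ℕ) : ℝ) ≤ n := by exact_mod_cast (show (b : ℕ) ≤ n by omega)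
  rw [← Complex.ofReal_mul, Real.mul_self_sqrt (mul_nonneg (by positivity) (by linarith))]

theorem splus_plus_minus : splus n * star (splus n)
    = diagonal fun a : Fin (n + 1) => (((((a : ℕ) : ℝ) + 1) * ((n : ℝ) - (a : ℕ)) : ℝ) : ℂ) := by
  have h1 : splus n = Matrix.of fun a b : Fin (n + 1) => if (a : ℕ) + 1 = (b : ℕ) then
      ((Real.sqrt ((((a : ℕ) : ℝ) + 1) * ((n : ℝ) - (a : ℕ)))) : ℂ) else 0 := by
    ext a b
    rw [splus, Matrix.of_apply]
    split_ifs with h
    · have : ((b : ℕ) : ℝ) = (a : ℕ) + 1 := by exact_mod_cast h.symm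
      rw [this]; congr 2; ring
    · rfl
  have h2 : star (splus n) = Matrix.of fun b a : Fin (n + 1) => if (a : ℕ) + 1 = (b : ℕ) then
      ((Real.sqrt ((((a : ℕ) : ℝ) + 1) * ((n : ℝ) - (a : ℕ)))) : ℂ) else 0 := by
    rw [h1]; ext b a
    rw [star_apply]
    simp only [Matrix.of_apply]
    split_ifs <;> simp
  rw [h2, h1]
  refine (row_product n
    (fun a => ((Real.sqrt ((((a : ℕ) : ℝ) + 1) * ((n : ℝ) - (a : ℕ)))) : ℂ))
    (fun a => ((Real.sqrt ((((a : ℕ) : ℝ) + 1) * ((n : ℝ) - (a : ℕ)))) : ℂ))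
    (fun a ha => by simp [ha])).trans ?_
  congr 1; funext b
  have hb : ((b : ℕ) : ℝ) ≤ n := by exact_mod_cast (show (b : ℕ) ≤ n by omega)
  rw [← Complex.ofReal_mul, Real.mul_self_sqrt (mul_nonneg (by positivity) (by linarith))]

theorem comm_plus_minus :
    splus n * star (splus n) - star (splus n) * splus n = (2 : ℂ) • spin n 2 := by
  rw [splus_plus_minus, splus_minus_plus, spin_two, ← diagonal_smul, diagonal_sub]
  congr 1; funext b
  simp; ring

theorem comm_z_plus : spin n 2 * splus n - splus n * spin n 2 = splus n := by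
  ext a b
  rw [spin_two, Matrix.sub_apply, diagonal_mul, mul_diagonal, splus]
  split_ifs with h
  · have : ((b : ℕ) : ℂ) = (a : ℕ) + 1 := by exact_mod_cast h.symm
    rw [this]; ring
  · simp

theorem comm_minus_z : star (splus n) * spin n 2 - spin n 2 * star (splus n) = star (splus n) := by
  conv_rhs => rw [← comm_z_plus n, star_sub, star_mul, star_mul, star_spin_two]

end Single

section Many

variable {n : ℕ} {V : Type} [Fintype V] [DecidableEq V]

/-- Operators on configurations. -/
abbrev Op (n : ℕ) (V : Type) [Fintype V] := Matrix (V → Fin (n + 1)) (V → Fin (n + 1)) ℂ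

/-- `S⁺` at a site. -/
def sP (n : ℕ) (x : V) : Op n V := siteOp x (splus n)
/-- `S⁻` at a site. -/
def sM (n : ℕ) (x : V) : Op n V := siteOp x (star (splus n))
/-- `S³` at a site. -/
def sZ (n : ℕ) (x : V) : Op n V := siteOp x (spin n 2)

theorem star_sP (x : V) : star (sP n x) = sM n x := star_siteOp x _
theorem star_sM (x : V) : star (sM n x) = sP n x := by rw [sM, star_siteOp, star_star]; rfl
theorem star_sZ (x : V) : star (sZ n x) = sZ n x := by rw [sZ, star_siteOp, star_spin_two]
theorem transpose_sP (x : V) : (sP n x)ᵀ = sM n x := by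
  rw [sP, siteOp_transpose, splus_transpose]; rfl
theorem transpose_sM (x : V) : (sM n x)ᵀ = sP n x := by
  rw [sM, siteOp_transpose, star_splus_transpose]; rfl
theorem transpose_sZ (x : V) : (sZ n x)ᵀ = sZ n x := by
  rw [sZ, siteOp_transpose, spin_two, diagonal_transpose]

theorem bond_eq (x y : V) :
    bond n x y = sZ n x * sZ n y + (1 / 2 : ℂ) • (sP n x * sM n y + sM n x * sP n y) := by
  simp only [bond, Fin.sum_univ_three, sZ, sP, sM]
  rw [show spin n 0 = (1 / 2 : ℂ) • (splus n + star (splus n)) from rfl,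
    show spin n 1 = (-Complex.I / 2) • (splus n - star (splus n)) from rfl]
  simp only [siteOp_smul, siteOp_add, siteOp_sub, smul_mul_assoc, mul_smul_comm, smul_smul,
    add_mul, mul_add, sub_mul, mul_sub, smul_add, smul_sub]
  have : (-Complex.I / 2) * (-Complex.I / 2) = -(1 / 4 : ℂ) := by
    rw [div_mul_div_comm, neg_mul_neg, Complex.I_mul_I]; norm_num
  simp only [this]
  module

theorem bond_star {x y : V} (h : x ≠ y) : star (bond n x y) = bond n x y := by
  rw [bond_eq]
  simp only [star_add, star_smul, star_mul, star_sP, star_sM, star_sZ]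
  rw [show star (1 / 2 : ℂ) = 1 / 2 by simp]
  simp only [sP, sM, sZ]
  rw [siteOp_comm h.symm, siteOp_comm h.symm, siteOp_comm h.symm]
  module

theorem bond_transpose {x y : V} (h : x ≠ y) : (bond n x y)ᵀ = bond n x y := by
  rw [bond_eq]
  simp only [transpose_add, transpose_smul, transpose_mul, transpose_sP, transpose_sM, transpose_sZ]
  simp only [sP, sM, sZ]
  rw [siteOp_comm h.symm, siteOp_comm h.symm, siteOp_comm h.symm]
  module

theorem gexp_diagonal_nonneg {ι : Type} [Fintype ι] [DecidableEq ι] {A : Matrix ι ι ℂ}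
    (hA : A.IsHermitian) (f : ι → ℝ) (hf : ∀ i, 0 ≤ f i) :
    0 ≤ (gexp A (diagonal fun i => (f i : ℂ))).re := by
  have : (diagonal fun i => (f i : ℂ)) = star (diagonal fun i => ((Real.sqrt (f i)) : ℂ))
      * diagonal fun i => ((Real.sqrt (f i)) : ℂ) := by
    rw [star_eq_conjTranspose, diagonal_conjTranspose, diagonal_mul_diagonal]
    congr 1; funext i
    simp [← Complex.ofReal_mul, Real.mul_self_sqrt (hf i)]
  rw [this]
  exact gexp_star_mul_self_nonneg hA _

theorem gexp_diagonal_le {ι : Type} [Fintype ι] [DecidableEq ι] [Nonempty ι] {A : Matrix ι ι ℂ}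
    (hA : A.IsHermitian) (f : ι → ℝ) (c : ℝ) (hf : ∀ i, f i ≤ c) :
    (gexp A (diagonal fun i => (f i : ℂ))).re ≤ c := by
  have h := gexp_diagonal_nonneg hA (fun i => c - f i) (fun i => by linarith [hf i])
  have e : (diagonal fun i => ((c - f i : ℝ) : ℂ)) = (c : ℂ) • (1 : Matrix ι ι ℂ)
      - diagonal fun i => (f i : ℂ) := by
    rw [← diagonal_one, ← diagonal_smul, diagonal_sub]
    congr 1; funext i; simp
  rw [e, gexp_sub, gexp_smul, gexp_one hA, mul_one, Complex.sub_re, Complex.ofReal_re] at h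
  linarith

theorem sZ_eq_diag (x : V) :
    sZ n x = diagonal fun σ : V → Fin (n + 1) => (((n : ℝ) / 2 - (σ x : ℕ) : ℝ) : ℂ) := by
  rw [sZ, spin_two_real, siteOp_diagonal]

theorem sZ_range (σ : Fin (n + 1)) : |(n : ℝ) / 2 - (σ : ℕ)| ≤ (n : ℝ) / 2 := by
  have : ((σ : ℕ) : ℝ) ≤ n := by exact_mod_cast (show (σ : ℕ) ≤ n by omega)
  rw [abs_le]; constructor <;> linarith [show (0 : ℝ) ≤ (σ : ℕ) by positivity]

theorem gexp_sZ_abs {A : Op n V} (hA : A.IsHermitian) (x : V) :
    |(gexp A (sZ n x)).re| ≤ (n : ℝ) / 2 := by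
  rw [sZ_eq_diag, abs_le]
  constructor
  · have := gexp_diagonal_le hA (fun σ : V → Fin (n + 1) => -((n : ℝ) / 2 - (σ x : ℕ))) ((n : ℝ) / 2)
      (fun σ => (neg_le_abs _).trans (sZ_range _))
    simp only [Complex.ofReal_neg] at this
    rw [← diagonal_neg, gexp_neg, Complex.neg_re] at this
    linarith
  · exact gexp_diagonal_le hA _ _ fun σ => (le_abs_self _).trans (sZ_range _)

theorem sZ_mul_eq_diag (x y : V) : sZ n x * sZ n y = diagonal fun σ : V → Fin (n + 1) =>
    ((((n : ℝ) / 2 - (σ x : ℕ)) * ((n : ℝ) / 2 - (σ y : ℕ)) : ℝ) : ℂ) := by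
  rw [sZ_eq_diag, sZ_eq_diag, diagonal_mul_diagonal]
  simp

theorem gexp_zz_abs {A : Op n V} (hA : A.IsHermitian) (x y : V) :
    |(gexp A (sZ n x * sZ n y)).re| ≤ (n : ℝ) ^ 2 / 4 := by
  have hb : ∀ σ : V → Fin (n + 1),
      |((n : ℝ) / 2 - (σ x : ℕ)) * ((n : ℝ) / 2 - (σ y : ℕ))| ≤ (n : ℝ) ^ 2 / 4 := by
    intro σ
    rw [abs_mul]
    refine (mul_le_mul (sZ_range _) (sZ_range _) (abs_nonneg _) (by positivity)).trans (le_of_eq ?_)
    ring
  rw [sZ_mul_eq_diag, abs_le]
  constructor
  · have := gexp_diagonal_le hA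
      (fun σ : V → Fin (n + 1) => -(((n : ℝ) / 2 - (σ x : ℕ)) * ((n : ℝ) / 2 - (σ y : ℕ))))
      ((n : ℝ) ^ 2 / 4) (fun σ => (neg_le_abs _).trans (hb σ))
    simp only [Complex.ofReal_neg] at this
    rw [← diagonal_neg, gexp_neg, Complex.neg_re] at this
    linarith
  · exact gexp_diagonal_le hA _ _ fun σ => (le_abs_self _).trans (hb σ)

/-- The Schwinger-boson form of the singlet projection. -/
theorem bond_schwinger {x y : V} (h : x ≠ y) :
    star (siteOp x (pMat n) * siteOp y (qMat n) - siteOp x (qMat n) * siteOp y (pMat n))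
      * (siteOp x (pMat n) * siteOp y (qMat n) - siteOp x (qMat n) * siteOp y (pMat n))
      = ((n : ℂ) ^ 2 / 2) • 1 - (2 : ℂ) • bond n x y := by
  have h4 : ∀ A B C D : Matrix (Fin (n + 1)) (Fin (n + 1)) ℂ,
      (siteOp y A * siteOp x B) * (siteOp x C * siteOp y D)
        = siteOp x (B * C) * siteOp y (A * D) := by
    intro A B C D
    rw [siteOp_comm h.symm A B, mul_assoc, ← mul_assoc (siteOp y A), siteOp_comm h.symm A C,
      ← siteOp_mul, ← siteOp_mul]
    simp only [mul_assoc]
  rw [star_sub, star_mul, star_mul, star_siteOp, star_siteOp, star_siteOp, star_siteOp, pMat_star,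
    sub_mul, mul_sub, mul_sub, h4, h4, h4, h4, pMat_sq, qMat_sq, pMat_mul_qMat, qMat_mul_pMat,
    bond_eq]
  simp only [sP, sM, sZ, siteOp_add, siteOp_sub, siteOp_smul, siteOp_one, add_mul, mul_add,
    mul_sub, sub_mul, smul_mul_assoc, mul_smul_comm, smul_smul, one_mul, mul_one]
  module

theorem gexp_bond_le {A : Op n V} (hA : A.IsHermitian) {x y : V} (h : x ≠ y) :
    (gexp A (bond n x y)).re ≤ (n : ℝ) ^ 2 / 4 := by
  have := gexp_star_mul_self_nonneg hA
    (siteOp x (pMat n) * siteOp y (qMat n) - siteOp x (qMat n) * siteOp y (pMat n))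
  rw [bond_schwinger h, gexp_sub, gexp_smul, gexp_smul, gexp_one hA, mul_one,
    show ((n : ℂ) ^ 2 / 2) = (((n : ℝ) ^ 2 / 2 : ℝ) : ℂ) by push_cast; rfl,
    show (2 : ℂ) = ((2 : ℝ) : ℂ) by norm_num, Complex.sub_re, Complex.ofReal_re,
    Complex.re_ofReal_mul] at this
  linarith

theorem sP_mul_sM_eq_diag (x : V) : sP n x * sM n x = diagonal fun σ : V → Fin (n + 1) =>
    ((((((σ x : ℕ)) : ℝ) + 1) * ((n : ℝ) - (σ x : ℕ)) : ℝ) : ℂ) := by
  rw [sP, sM, siteOp_mul, splus_plus_minus, siteOp_diagonal]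

theorem gexp_bond_abs {A : Op n V} (hA : A.IsHermitian) {x y : V} (h : x ≠ y) :
    |(gexp A (bond n x y)).re| ≤ 2 * ((n : ℝ) + 1) ^ 2 := by
  rw [abs_le]
  refine ⟨?_, (gexp_bond_le hA h).trans (by nlinarith [show (0 : ℝ) ≤ n by positivity])⟩
  have h0 := gexp_star_mul_self_nonneg hA (sM n x + sM n y)
  have e : star (sM n x + sM n y) * (sM n x + sM n y)
      = sP n x * sM n x + sP n y * sM n y + (sP n x * sM n y + sM n x * sP n y) := by
    rw [star_add, star_sM, star_sM, add_mul, mul_add, mul_add]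
    rw [show sP n y * sM n x = sM n x * sP n y from siteOp_comm h.symm _ _]
    abel
  rw [e, gexp_add, gexp_add, Complex.add_re, Complex.add_re] at h0
  have hb : ∀ v : V, (gexp A (sP n v * sM n v)).re ≤ ((n : ℝ) + 1) ^ 2 := by
    intro v
    rw [sP_mul_sM_eq_diag]
    refine gexp_diagonal_le hA _ _ fun σ => ?_
    have : (((σ v : ℕ)) : ℝ) ≤ n := by exact_mod_cast (show (σ v : ℕ) ≤ n by omega)
    nlinarith [show (0 : ℝ) ≤ (σ v : ℕ) by positivity]
  rw [bond_eq, gexp_add, gexp_smul, Complex.add_re,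
    show (1 / 2 : ℂ) = ((1 / 2 : ℝ) : ℂ) by norm_num, Complex.re_ofReal_mul]
  have := abs_le.mp (gexp_zz_abs hA x y)
  nlinarith [hb x, hb y, show (0 : ℝ) ≤ n by positivity]

end Many

end

end Vale.Agent.P361
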