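import Vale.Agent.P361.Limit
import Mathlib.Analysis.SumIntegralComparisons
import Mathlib.Analysis.SpecialFunctions.Gaussian.GaussianIntegral
import Mathlib.NumberTheory.LSeries.RiemannZeta
import Mathlib.Analysis.SpecialFunctions.Trigonometric.Bounds
import Mathlib.Analysis.PSeries
import Mathlib.Analysis.Real.Pi.Bounds
import Mathlib.MeasureTheory.Integral.IntegralEqImproper

/-! # The sharp one-sided `T^{3/2}` law -/

namespace Vale.Agent.P361

open Matrix Filter Topology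

noncomputable section

/-- Truncated Gaussian integral. -/
def gaussI (T : ℝ) : ℝ := ∫ s in (0 : ℝ)..T, Real.exp (-(s ^ 2 / 2))

theorem gaussI_nonneg {T : ℝ} (hT : 0 ≤ T) : 0 ≤ gaussI T :=
  intervalIntegral.integral_nonneg hT fun s _ => (Real.exp_pos _).le

theorem gaussI_tendsto : Tendsto gaussI atTop (𝓝 (Real.sqrt (Real.pi / 2))) := by
  have e : ∀ s : ℝ, Real.exp (-(s ^ 2 / 2)) = Real.exp (-(1 / 2) * s ^ 2) := fun s => by ring_nf
  have h := MeasureTheory.intervalIntegral_tendsto_integral_Ioi (f := fun s : ℝ => Real.exp (-(1 / 2) * s ^ 2))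
    (μ := MeasureTheory.volume) 0
    ((integrable_exp_neg_mul_sq (by norm_num : (0 : ℝ) < 1 / 2)).integrableOn) tendsto_id
  rw [integral_gaussian_Ioi] at h
  have v : Real.sqrt (Real.pi / (1 / 2)) / 2 = Real.sqrt (Real.pi / 2) := by
    rw [show Real.pi / (1 / 2) = 2 ^ 2 * (Real.pi / 2) by ring, Real.sqrt_mul (by norm_num),
      Real.sqrt_sq (by norm_num)]
    ring
  rw [v] at h
  refine h.congr fun T => ?_
  simp [gaussI, e]

theorem riemannG_lower {t T : ℝ} (ht : 0 < t) (hT : 0 ≤ T) (hTt : T ≤ 2 * Real.sqrt t) (N : ℕ) :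
    gaussI T / (Real.pi * Real.sqrt t) - 2 / ((2 * N + 1 : ℕ) : ℝ) ≤ riemannG (2 * N + 1) t := by
  set L := 2 * N + 1 with hL
  have hL0 : (0 : ℝ) < (L : ℝ) := by rw [hL]; positivity
  set k := Real.sqrt t * (2 * Real.pi / L) with hk
  have hk0 : 0 < k := by rw [hk]; positivity
  set R := ⌊T / k⌋₊ with hR
  have hRle : (R : ℝ) ≤ T / k := Nat.floor_le (by positivity)
  have hRgt : T / k < (R : ℝ) + 1 := Nat.lt_floor_add_one _
  have hRL : 2 * R < L := by
    have h1 : (R : ℝ) * k ≤ T := (le_div_iff₀ hk0).mp hRle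
    have h2 : (R : ℝ) * (Real.pi / L) ≤ 1 := by
      have h3 : (R : ℝ) * k ≤ 2 * Real.sqrt t := h1.trans hTt
      rw [hk] at h3
      have h4 : Real.sqrt t * ((R : ℝ) * (2 * Real.pi / L)) ≤ Real.sqrt t * 2 := by linarith
      have := le_of_mul_le_mul_left h4 (Real.sqrt_pos.mpr ht)
      linarith [show (R : ℝ) * (2 * Real.pi / L) = 2 * ((R : ℝ) * (Real.pi / L)) by ring]
    have h5 : (R : ℝ) * Real.pi ≤ L := by
      rw [mul_div_assoc', div_le_one hL0] at h2; exact h2
    rcases Nat.eq_zero_or_pos R with h0 | h0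
    · omega
    · have : (2 : ℝ) * R < L := by
        have : (1 : ℝ) ≤ R := by exact_mod_cast h0
        nlinarith [Real.pi_gt_three]
      exact_mod_cast this
  set g : ℕ → ℝ := fun i => Real.exp (-(t * (1 - Real.cos (angle L i)))) with hg
  have hgl : ∀ i : ℕ, Real.exp (-((k * i) ^ 2 / 2)) ≤ g i := by
    intro i
    rw [hg]
    apply Real.exp_le_exp.mpr
    have := mul_le_mul_of_nonneg_left
      (show 1 - Real.cos (angle L i) ≤ angle L i ^ 2 / 2 by
        linarith [Real.one_sub_sq_div_two_le_cos (x := angle L i)]) ht.le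
    have e : (k * i) ^ 2 / 2 = t * (angle L i ^ 2 / 2) := by
      rw [hk, angle, mul_pow, mul_pow, Real.sq_sqrt ht.le]; ring
    linarith
  have hsymm : ∀ i : ℕ, i ≤ L → g (L - i) = g i := by
    intro i hi
    simp only [hg, angle]
    rw [Nat.cast_sub hi]
    congr 4
    rw [show 2 * Real.pi * ((L : ℝ) - i) / L = 2 * Real.pi - 2 * Real.pi * i / L by
      field_simp, Real.cos_two_pi_sub]
  have hsum : 2 * ∑ i ∈ Finset.range R, g (i + 1) ≤ ∑ i : Fin L, g i := by
    rw [Fin.sum_univ_eq_sum_range g, two_mul]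
    have hA : ∑ i ∈ Finset.range R, g (i + 1)
        = ∑ i ∈ (Finset.range R).image (fun i => i + 1), g i :=
      (Finset.sum_image (fun a _ b _ h => Nat.add_right_cancel h)).symm
    have hB : ∑ i ∈ Finset.range R, g (i + 1)
        = ∑ i ∈ (Finset.range R).image (fun i => L - (i + 1)), g i := by
      rw [Finset.sum_image (fun a ha b hb h => by
        simp only [Finset.coe_range, Set.mem_Iio] at ha hb; omega)]
      refine Finset.sum_congr rfl fun i hi => ?_
      rw [Finset.mem_range] at hi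
      rw [hsymm (i + 1) (by omega)]
    conv_lhs => arg 1; rw [hA]
    conv_lhs => arg 2; rw [hB]
    rw [← Finset.sum_union]
    · refine Finset.sum_le_sum_of_subset_of_nonneg ?_ fun i _ _ => (Real.exp_pos _).le
      intro i hi
      simp only [Finset.mem_union, Finset.mem_image, Finset.mem_range] at hi ⊢
      omega
    · rw [Finset.disjoint_left]
      intro i hi hi'
      simp only [Finset.mem_image, Finset.mem_range] at hi hi'
      omega
  have hint : gaussI T / k - 1 ≤ ∑ i ∈ Finset.range R, g (i + 1) := by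
    have hanti : AntitoneOn (fun x : ℝ => Real.exp (-((k * x) ^ 2 / 2)))
        (Set.Icc 0 (0 + ((R + 1 : ℕ) : ℝ))) := by
      intro x hx y _ hxy
      apply Real.exp_le_exp.mpr
      have : k * x ≤ k * y := mul_le_mul_of_nonneg_left hxy hk0.le
      have : 0 ≤ k * x := mul_nonneg hk0.le hx.1
      nlinarith
    have h1 := hanti.integral_le_sum
    simp only [zero_add] at h1
    rw [intervalIntegral.integral_comp_mul_left (fun s => Real.exp (-(s ^ 2 / 2))) hk0.ne',
      mul_zero, smul_eq_mul, Finset.sum_range_succ'] at h1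
    simp only [Nat.cast_zero, mul_zero, zero_pow two_ne_zero, zero_div, neg_zero, Real.exp_zero] at h1
    have h2 : gaussI T ≤ ∫ s in (0 : ℝ)..k * ((R + 1 : ℕ) : ℝ), Real.exp (-(s ^ 2 / 2)) := by
      have hTle : T ≤ k * ((R + 1 : ℕ) : ℝ) := by
        push_cast
        rw [div_lt_iff₀ hk0] at hRgt
        linarith
      refine intervalIntegral.integral_mono_interval le_rfl hT hTle ?_ ?_
      · exact Filter.Eventually.of_forall fun s => (Real.exp_pos _).le
      · exact Continuous.intervalIntegrable (by fun_prop) _ _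
    have h3 : gaussI T / k ≤ ∑ i ∈ Finset.range R, Real.exp (-((k * ((i + 1 : ℕ) : ℝ)) ^ 2 / 2)) + 1 := by
      refine le_trans ?_ h1
      rw [div_eq_inv_mul]
      exact mul_le_mul_of_nonneg_left h2 (by positivity)
    have h4 := Finset.sum_le_sum (s := Finset.range R) (fun i _ => hgl (i + 1))
    linarith
  have hG : riemannG L t = (∑ i : Fin L, g i) / L := rfl
  rw [hG, le_div_iff₀ hL0]
  have e : (gaussI T / (Real.pi * Real.sqrt t) - 2 / (L : ℝ)) * L = 2 * (gaussI T / k - 1) := by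
    rw [hk]; field_simp
  rw [e]
  linarith

theorem beta_bound (n : ℕ) (hn : 1 ≤ n) {β m₀ T : ℝ} (hβ : 0 < β) (hm₀ : 0 < m₀)
    (hm : m₀ < magnetization n β) (hT : 0 ≤ T)
    (hTβ : T ≤ 2 * Real.sqrt (β * (n : ℝ) ^ 2 / (2 * m₀))) (K : ℕ) :
    4 * m₀ * ∑ i ∈ Finset.range K,
        (gaussI T / (Real.pi * Real.sqrt (((i : ℝ) + 1) * β * (n : ℝ) ^ 2 / (2 * m₀)))) ^ 3
      ≤ (n : ℝ) * ((n : ℝ) - 2 * magnetization n β) := by
  set tt : ℕ → ℝ := fun i => ((i : ℝ) + 1) * β * (n : ℝ) ^ 2 / (2 * m₀) with htt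
  have htt0 : ∀ i, 0 < tt i := by
    intro i
    have : (1 : ℝ) ≤ n := by exact_mod_cast hn
    rw [htt]; positivity
  set J : ℕ → ℝ := fun i => gaussI T / (Real.pi * Real.sqrt (tt i)) with hJ
  have hJ0 : ∀ i, 0 ≤ J i := fun i => by
    rw [hJ]; exact div_nonneg (gaussI_nonneg hT) (by positivity)
  have hTi : ∀ i, T ≤ 2 * Real.sqrt (tt i) := by
    intro i
    refine hTβ.trans (mul_le_mul_of_nonneg_left (Real.sqrt_le_sqrt ?_) (by norm_num))
    rw [htt]
    refine div_le_div_of_nonneg_right ?_ (by positivity)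
    have : 0 ≤ (i : ℝ) * (β * (n : ℝ) ^ 2) := by positivity
    linarith
  have h0 : ∀ h : ℝ, 0 < h → ∀ m' : ℝ, m₀ ≤ m' → m' < magnetization n β →
      4 * m₀ * ∑ i ∈ Finset.range K, Real.exp (-(((i : ℝ) + 1) * β * h)) * J i ^ 3
        ≤ (n : ℝ) * ((n : ℝ) - 2 * m') := by
    intro h hh m' hm' hm''
    have hev := mu_eventually n hβ hh hm''
    have hlim : Tendsto (fun N : ℕ => 4 * m₀ * ∑ i ∈ Finset.range K,
        Real.exp (-(((i : ℝ) + 1) * β * h)) * max 0 (J i - 2 / ((2 * N + 1 : ℕ) : ℝ)) ^ 3) atTop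
        (𝓝 (4 * m₀ * ∑ i ∈ Finset.range K, Real.exp (-(((i : ℝ) + 1) * β * h)) * J i ^ 3)) := by
      refine (tendsto_finsetSum _ fun i _ => ?_).const_mul _
      refine Tendsto.const_mul _ (Tendsto.pow ?_ 3)
      have hz : Tendsto (fun N : ℕ => 2 / ((2 * N + 1 : ℕ) : ℝ)) atTop (𝓝 0) :=
        tendsto_const_nhds.div_atTop (tendsto_natCast_atTop_atTop.comp
          (tendsto_atTop_atTop.mpr fun b => ⟨b, fun a ha => by omega⟩))
      have := (tendsto_const_nhds (x := (0 : ℝ))).max ((tendsto_const_nhds (x := J i)).sub hz)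
      rwa [sub_zero, max_eq_right (hJ0 i)] at this
    refine le_of_tendsto hlim ?_
    filter_upwards [hev] with N hN
    have hμ : m₀ ≤ mu n N β h := hm'.trans hN.le
    refine le_trans ?_ ((finite_volume_bound n N hβ hh hm₀ hμ K).trans
      (mul_le_mul_of_nonneg_left (by linarith) (by positivity)))
    refine mul_le_mul_of_nonneg_left (Finset.sum_le_sum fun i _ => ?_) (by positivity)
    refine mul_le_mul_of_nonneg_left (pow_le_pow_left₀ (le_max_left _ _) ?_ 3) (Real.exp_pos _).le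
    refine max_le (by rw [riemannG]; positivity) ?_
    exact riemannG_lower (htt0 i) hT (hTi i) N
  have h1 : ∀ m' : ℝ, m₀ ≤ m' → m' < magnetization n β →
      4 * m₀ * ∑ i ∈ Finset.range K, J i ^ 3 ≤ (n : ℝ) * ((n : ℝ) - 2 * m') := by
    intro m' hm' hm''
    have hlim : Tendsto (fun h : ℝ => 4 * m₀ * ∑ i ∈ Finset.range K,
        Real.exp (-(((i : ℝ) + 1) * β * h)) * J i ^ 3) (𝓝[>] 0)
        (𝓝 (4 * m₀ * ∑ i ∈ Finset.range K, J i ^ 3)) := by
      have hc : Continuous (fun h : ℝ => 4 * m₀ * ∑ i ∈ Finset.range K,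
          Real.exp (-(((i : ℝ) + 1) * β * h)) * J i ^ 3) := by fun_prop
      have h2 : Tendsto _ (𝓝[>] (0 : ℝ)) _ := (hc.tendsto 0).mono_left nhdsWithin_le_nhds
      simpa using h2
    exact le_of_tendsto hlim (eventually_nhdsWithin_of_forall fun h hh => h0 h hh m' hm' hm'')
  refine ge_of_tendsto (b := 4 * m₀ * ∑ i ∈ Finset.range K, J i ^ 3)
    (f := fun m' : ℝ => (n : ℝ) * ((n : ℝ) - 2 * m')) (x := 𝓝[<] magnetization n β) ?_ ?_
  · exact ((by fun_prop : Continuous fun m' : ℝ => (n : ℝ) * ((n : ℝ) - 2 * m')).tendsto _).mono_left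
      nhdsWithin_le_nhds
  · filter_upwards [Ioo_mem_nhdsLT hm] with m' hm'
    exact h1 m' hm'.1.le hm'.2

/-- The coefficient of the truncated bound. -/
def coefC (n K : ℕ) (T m₀ : ℝ) : ℝ :=
  4 * m₀ / (2 * n) * ∑ i ∈ Finset.range K,
    (gaussI T / (Real.pi * Real.sqrt ((i : ℝ) + 1) * Real.sqrt ((n : ℝ) ^ 2 / (2 * m₀)))) ^ 3

theorem coefC_bound (n : ℕ) (hn : 1 ≤ n) {β m₀ T : ℝ} (hβ : 0 < β) (hm₀ : 0 < m₀)
    (hm : m₀ < magnetization n β) (hT : 0 ≤ T)
    (hTβ : T ≤ 2 * Real.sqrt (β * (n : ℝ) ^ 2 / (2 * m₀))) (K : ℕ) :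
    coefC n K T m₀ ≤ Real.sqrt β ^ 3 * ((n : ℝ) / 2 - magnetization n β) := by
  have hn' : (1 : ℝ) ≤ n := by exact_mod_cast hn
  have hsb : 0 < Real.sqrt β := Real.sqrt_pos.mpr hβ
  have h := beta_bound n hn hβ hm₀ hm hT hTβ K
  have e : coefC n K T m₀ = Real.sqrt β ^ 3 / (2 * n) * (4 * m₀ * ∑ i ∈ Finset.range K,
      (gaussI T / (Real.pi * Real.sqrt (((i : ℝ) + 1) * β * (n : ℝ) ^ 2 / (2 * m₀)))) ^ 3) := by
    rw [coefC, Finset.mul_sum, Finset.mul_sum, Finset.mul_sum]
    refine Finset.sum_congr rfl fun i _ => ?_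
    rw [mul_div_assoc (((i : ℝ) + 1) * β), Real.sqrt_mul (by positivity),
      Real.sqrt_mul (by positivity)]
    field_simp
  rw [e]
  refine (mul_le_mul_of_nonneg_left h (by positivity)).trans (le_of_eq ?_)
  field_simp

theorem sqrt_cube {x : ℝ} (hx : 0 ≤ x) : Real.sqrt x ^ 3 = x ^ ((3 : ℝ) / 2) := by
  rw [Real.sqrt_eq_rpow, ← Real.rpow_mul_natCast hx]
  norm_num

theorem zeta_three_halves :
    HasSum (fun i : ℕ => 1 / Real.sqrt ((i : ℝ) + 1) ^ 3) (riemannZeta (3 / 2)).re := by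
  have hs : Summable (fun i : ℕ => 1 / Real.sqrt ((i : ℝ) + 1) ^ 3) := by
    have h0 := (Real.summable_one_div_nat_rpow.mpr (by norm_num : (1 : ℝ) < 3 / 2))
    have := (summable_nat_add_iff 1).mpr h0
    refine this.congr fun i => ?_
    rw [sqrt_cube (by positivity)]; push_cast; rfl
  have e : riemannZeta (3 / 2) = ((∑' i : ℕ, 1 / Real.sqrt ((i : ℝ) + 1) ^ 3 : ℝ) : ℂ) := by
    rw [zeta_eq_tsum_one_div_nat_add_one_cpow (by norm_num), Complex.ofReal_tsum]
    refine tsum_congr fun i => ?_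
    rw [sqrt_cube (by positivity), Complex.ofReal_div, Complex.ofReal_one,
      Complex.ofReal_cpow (by positivity)]
    push_cast; rfl
  rw [e, Complex.ofReal_re]
  exact hs.hasSum

/-- The sharp lower bound in Bloch's law. -/
theorem bloch_lower (n : ℕ) (hn : 1 ≤ n) {ε : ℝ} (hε : 0 < ε) :
    ∀ᶠ β : ℝ in atTop, (riemannZeta (3 / 2)).re
        / (8 * Real.pi ^ ((3 : ℝ) / 2) * ((n : ℝ) / 2) ^ ((3 : ℝ) / 2)) - ε
      ≤ β ^ ((3 : ℝ) / 2) * ((n : ℝ) / 2 - magnetization n β) := by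
  have hn' : (0 : ℝ) < n := by exact_mod_cast hn
  set S := (n : ℝ) / 2 with hS
  have hS0 : 0 < S := by positivity
  set target := (riemannZeta (3 / 2)).re / (8 * Real.pi ^ ((3 : ℝ) / 2) * S ^ ((3 : ℝ) / 2))
    with htarget
  set w : ℝ := Real.sqrt (Real.pi / 2) / (Real.pi * Real.sqrt n) with hw
  have hw3 : w ^ 3 = 1 / (8 * Real.pi ^ ((3 : ℝ) / 2) * S ^ ((3 : ℝ) / 2)) := by
    have e8 : 8 * Real.pi ^ ((3 : ℝ) / 2) * S ^ ((3 : ℝ) / 2)
        = (2 * Real.sqrt Real.pi * Real.sqrt S) ^ 3 := by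
      rw [mul_pow, mul_pow, sqrt_cube Real.pi_pos.le, sqrt_cube hS0.le]; norm_num
    rw [e8, ← _root_.one_div_pow]
    congr 1
    rw [hw, hS, Real.sqrt_div Real.pi_pos.le, Real.sqrt_div hn'.le]
    have h2 : Real.sqrt 2 * Real.sqrt 2 = 2 := Real.mul_self_sqrt (by norm_num)
    have hp : Real.sqrt Real.pi * Real.sqrt Real.pi = Real.pi := Real.mul_self_sqrt Real.pi_pos.le
    field_simp
    nlinarith [h2, hp]
  have hKlim := (zeta_three_halves.tendsto_sum_nat).mul_const (w ^ 3)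
  obtain ⟨K, hK⟩ := (hKlim.eventually (eventually_gt_nhds (show target - ε < _ by
    rw [hw3, mul_one_div]; linarith [htarget.le, htarget.ge]))).exists
  have hTlim : Tendsto (fun T : ℝ => coefC n K T S) atTop
      (𝓝 ((∑ i ∈ Finset.range K, 1 / Real.sqrt ((i : ℝ) + 1) ^ 3) * w ^ 3)) := by
    have he : ∀ T, coefC n K T S = (∑ i ∈ Finset.range K, 1 / Real.sqrt ((i : ℝ) + 1) ^ 3)
        * (gaussI T / (Real.pi * Real.sqrt n)) ^ 3 := by
      intro T
      rw [coefC, Finset.sum_mul, hS, show 4 * ((n : ℝ) / 2) / (2 * n) = 1 by field_simp; norm_num,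
        one_mul, show (n : ℝ) ^ 2 / (2 * ((n : ℝ) / 2)) = n by field_simp]
      refine Finset.sum_congr rfl fun i _ => ?_
      field_simp
    simp only [he]
    exact (gaussI_tendsto.div_const _).pow 3 |>.const_mul _
  obtain ⟨T, hT, hT0⟩ := ((hTlim.eventually (eventually_gt_nhds hK)).and (eventually_ge_atTop 0)).exists
  have hmlim : Tendsto (fun m₀ : ℝ => coefC n K T m₀) (𝓝[<] S) (𝓝 (coefC n K T S)) := by
    have hsq : ContinuousAt (fun m₀ : ℝ => Real.sqrt ((n : ℝ) ^ 2 / (2 * m₀))) S :=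
      (ContinuousAt.div continuousAt_const (continuousAt_const.mul continuousAt_id)
        (mul_ne_zero two_ne_zero hS0.ne')).sqrt
    have hc : ContinuousAt (fun m₀ : ℝ => coefC n K T m₀) S := by
      unfold coefC
      refine ((continuousAt_const.mul continuousAt_id).div_const _).mul ?_
      refine tendsto_finsetSum _ fun i _ => ?_
      refine ((continuousAt_const).div (continuousAt_const.mul hsq) ?_).pow 3
      exact ne_of_gt (mul_pos (mul_pos Real.pi_pos (Real.sqrt_pos.mpr (by positivity)))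
        (Real.sqrt_pos.mpr (by positivity)))
    exact hc.tendsto.mono_left nhdsWithin_le_nhds
  obtain ⟨m₀, hm₀C, hm₀⟩ :=
    ((hmlim.eventually (eventually_gt_nhds hT)).and (Ioo_mem_nhdsLT hS0)).exists
  have hlarge : Tendsto (fun β : ℝ => β ^ ((3 : ℝ) / 2) * (S - m₀)) atTop atTop :=
    (tendsto_rpow_atTop (by norm_num)).atTop_mul_const (sub_pos.mpr hm₀.2)
  have hTev : ∀ᶠ β : ℝ in atTop, T ≤ 2 * Real.sqrt (β * (n : ℝ) ^ 2 / (2 * m₀)) := by
    have h1 : Tendsto (fun β : ℝ => β * (n : ℝ) ^ 2 / (2 * m₀)) atTop atTop :=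
      (tendsto_id.atTop_mul_const (by positivity)).atTop_div_const (by linarith [hm₀.1])
    exact ((Real.tendsto_sqrt_atTop.comp h1).const_mul_atTop (by norm_num : (0 : ℝ) < 2)).eventually
      (eventually_ge_atTop T)
  filter_upwards [eventually_gt_atTop (0 : ℝ), hlarge.eventually (eventually_ge_atTop target), hTev]
    with β hβ hbig hTβ
  rcases le_or_gt (magnetization n β) m₀ with hm | hm
  · have : β ^ ((3 : ℝ) / 2) * (S - m₀) ≤ β ^ ((3 : ℝ) / 2) * (S - magnetization n β) :=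
      mul_le_mul_of_nonneg_left (by linarith) (Real.rpow_nonneg hβ.le _)
    linarith
  · have := coefC_bound n hn hβ hm₀.1 hm hT0 hTβ K
    rw [sqrt_cube hβ.le, ← hS] at this
    linarith

end

end Vale.Agent.P361
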