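import Vale.Agent.P361.SpinAlg
import Mathlib.Analysis.SpecialFunctions.Exp

/-! # Double commutators with magnon operators -/

namespace Vale.Agent.P361

open Matrix

noncomputable section

variable {n : ℕ} {V : Type} [Fintype V] [DecidableEq V]

/-- Oriented nearest-neighbour relation. -/
def Edge (pos : V → Site) (x y : V) : Prop := ∃ j, pos y = pos x + Pi.single j 1

instance (pos : V → Site) (x y : V) : Decidable (Edge pos x y) :=
  inferInstanceAs (Decidable (∃ j, pos y = pos x + Pi.single j 1))

theorem hamOn_eq (pos : V → Site) :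
    hamOn n pos = -∑ x : V, ∑ y : V, if Edge pos x y then bond n x y else 0 := rfl

theorem Edge.ne {pos : V → Site} {x y : V} (h : Edge pos x y) : x ≠ y := by
  rintro rfl
  obtain ⟨j, hj⟩ := h
  have := congrFun hj j
  simp at this

theorem hamOn_star (pos : V → Site) : star (hamOn n pos) = hamOn n pos := by
  simp only [hamOn_eq, star_neg, star_sum]
  congr 1
  refine Finset.sum_congr rfl fun x _ => Finset.sum_congr rfl fun y _ => ?_
  split_ifs with h
  · exact bond_star h.ne
  · exact star_zero _

theorem hamOn_transpose (pos : V → Site) : (hamOn n pos)ᵀ = hamOn n pos := by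
  simp only [hamOn_eq, transpose_neg, transpose_sum]
  congr 1
  refine Finset.sum_congr rfl fun x _ => Finset.sum_congr rfl fun y _ => ?_
  split_ifs with h
  · exact bond_transpose h.ne
  · exact transpose_zero

theorem mag_eq : mag n V = ∑ v : V, sZ n v := rfl

/-- The exponent `-β (H - h M)`. -/
def expo (n : ℕ) (pos : V → Site) (β h : ℝ) : Op n V :=
  (-(β : ℂ)) • (hamOn n pos - (h : ℂ) • mag n V)

theorem expo_herm (pos : V → Site) (β h : ℝ) : (expo n pos β h).IsHermitian := by
  change star (expo n pos β h) = expo n pos β h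
  simp [expo, star_smul, star_sub, hamOn_star, mag_eq, star_sum, star_sZ]

theorem expo_transpose (pos : V → Site) (β h : ℝ) : (expo n pos β h)ᵀ = expo n pos β h := by
  simp [expo, transpose_sub, hamOn_transpose, mag_eq, transpose_sum, transpose_sZ]

theorem logPartition_eq (pos : V → Site) (β h : ℝ) :
    logPartition n pos β h = logTr (expo n pos β h) := rfl

/-- The commutator. -/
def com (A B : Op n V) : Op n V := A * B - B * A

theorem com_add_left (A B C : Op n V) : com (A + B) C = com A C + com B C := by
  simp [com, add_mul, mul_add]; abel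
theorem com_sub_left (A B C : Op n V) : com (A - B) C = com A C - com B C := by
  simp [com, sub_mul, mul_sub]; abel
theorem com_sub_right (A B C : Op n V) : com A (B - C) = com A B - com A C := by
  simp [com, sub_mul, mul_sub]; abel
theorem com_add_right (A B C : Op n V) : com A (B + C) = com A B + com A C := by
  simp [com, add_mul, mul_add]; abel
theorem com_smul_left (c : ℂ) (A B : Op n V) : com (c • A) B = c • com A B := by
  simp [com, smul_sub]
theorem com_smul_right (c : ℂ) (A B : Op n V) : com A (c • B) = c • com A B := by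
  simp [com, smul_sub]
theorem com_neg_left (A B : Op n V) : com (-A) B = -com A B := by
  simp [com]; abel
theorem com_neg_right (A B : Op n V) : com A (-B) = -com A B := by
  simp [com]; abel
theorem com_sum_left {κ : Type*} (s : Finset κ) (f : κ → Op n V) (B : Op n V) :
    com (∑ k ∈ s, f k) B = ∑ k ∈ s, com (f k) B := by
  simp [com, Finset.sum_mul, Finset.mul_sum]
theorem com_sum_right {κ : Type*} (s : Finset κ) (A : Op n V) (f : κ → Op n V) :
    com A (∑ k ∈ s, f k) = ∑ k ∈ s, com A (f k) := by
  simp [com, Finset.sum_mul, Finset.mul_sum]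
theorem com_zero_left (A : Op n V) : com 0 A = 0 := by simp [com]
theorem com_zero_right (A : Op n V) : com A 0 = 0 := by simp [com]
theorem com_mul_left (A B C : Op n V) : com (A * B) C = A * com B C + com A C * B := by
  simp only [com, mul_sub, sub_mul, mul_assoc]; abel
theorem com_mul_right (A B C : Op n V) : com A (B * C) = com A B * C + B * com A C := by
  simp only [com, mul_sub, sub_mul, mul_assoc]; abel
theorem com_site_ne {x y : V} (h : x ≠ y) (A B : Matrix (Fin (n + 1)) (Fin (n + 1)) ℂ) :
    com (siteOp x A) (siteOp y B) = 0 := by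
  rw [com, siteOp_comm h, sub_self]

theorem com_sZ_sP (x : V) : com (sZ n x) (sP n x) = sP n x := by
  rw [com, sZ, sP, siteOp_mul, siteOp_mul, ← siteOp_sub, comm_z_plus]

theorem com_sM_sZ (x : V) : com (sM n x) (sZ n x) = sM n x := by
  rw [com, sZ, sM, siteOp_mul, siteOp_mul, ← siteOp_sub, comm_minus_z]

theorem com_sP_sM (x : V) : com (sP n x) (sM n x) = (2 : ℂ) • sZ n x := by
  rw [com, sP, sM, sZ, siteOp_mul, siteOp_mul, ← siteOp_sub, comm_plus_minus, siteOp_smul]

theorem com_sM_sP (x : V) : com (sM n x) (sP n x) = (-2 : ℂ) • sZ n x := by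
  rw [neg_smul, ← com_sP_sM, com, com, neg_sub]

theorem com_sP_self (x : V) : com (sP n x) (sP n x) = 0 := sub_self _

/-- A magnon creation-annihilation operator `∑ u_v S⁺_v`. -/
def magnon (n : ℕ) (u : V → ℂ) : Op n V := ∑ v, u v • sP n v

theorem star_magnon (u : V → ℂ) : star (magnon n u) = ∑ v, star (u v) • sM n v := by
  simp [magnon, star_sum, star_smul, star_sP]

/-- The operator appearing in `[S_x ⬝ S_y, S⁺]`. -/
def flip (n : ℕ) (x y : V) : Op n V := sP n x * sZ n y - sZ n x * sP n y

theorem com_bond_sP_left {x y : V} (h : x ≠ y) : com (bond n x y) (sP n x) = flip n x y := by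
  have hz : com (sZ n y) (sP n x) = 0 := com_site_ne h.symm _ _
  have hp : com (sP n y) (sP n x) = 0 := com_site_ne h.symm _ _
  have hm : com (sM n y) (sP n x) = 0 := com_site_ne h.symm _ _
  rw [bond_eq, com_add_left, com_smul_left, com_add_left, com_mul_left, com_mul_left, com_mul_left,
    hz, hp, hm, com_sZ_sP, com_sP_self, com_sM_sP, flip]
  simp only [mul_zero, zero_mul, zero_add, add_zero, smul_mul_assoc, smul_smul]
  module

theorem com_bond_sP_right {x y : V} (h : x ≠ y) : com (bond n x y) (sP n y) = -flip n x y := by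
  have hz : com (sZ n x) (sP n y) = 0 := com_site_ne h _ _
  have hp : com (sP n x) (sP n y) = 0 := com_site_ne h _ _
  have hm : com (sM n x) (sP n y) = 0 := com_site_ne h _ _
  rw [bond_eq, com_add_left, com_smul_left, com_add_left, com_mul_left, com_mul_left, com_mul_left,
    hz, hp, hm, com_sZ_sP, com_sP_self, com_sM_sP, flip]
  simp only [mul_zero, zero_mul, zero_add, add_zero, mul_smul_comm, smul_smul]
  rw [show sP n x * sZ n y = sP n x * sZ n y from rfl]
  module

theorem com_bond_sP_other {x y v : V} (hx : v ≠ x) (hy : v ≠ y) :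
    com (bond n x y) (sP n v) = 0 := by
  rw [bond_eq, com_add_left, com_smul_left, com_add_left, com_mul_left, com_mul_left, com_mul_left]
  simp only [sP, sM, sZ, com_site_ne hx.symm, com_site_ne hy.symm, mul_zero, zero_mul, add_zero,
    smul_zero]

theorem com_bond_magnon {x y : V} (h : x ≠ y) (u : V → ℂ) :
    com (bond n x y) (magnon n u) = (u x - u y) • flip n x y := by
  rw [magnon, com_sum_right]
  simp only [com_smul_right]
  rw [Finset.sum_eq_add x y h ?_ (by simp) (by simp), com_bond_sP_left h, com_bond_sP_right h]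
  · module
  · rintro v - ⟨hx, hy⟩
    rw [com_bond_sP_other hx hy, smul_zero]

theorem com_magnon_flip {x y : V} (h : x ≠ y) (u : V → ℂ) :
    com (star (magnon n u)) (flip n x y)
      = star (u x) • ((-2 : ℂ) • (sZ n x * sZ n y) - sM n x * sP n y)
        + star (u y) • (sP n x * sM n y + (2 : ℂ) • (sZ n x * sZ n y)) := by
  rw [star_magnon, com_sum_left]
  simp only [com_smul_left]
  rw [Finset.sum_eq_add x y h ?_ (by simp) (by simp)]
  · congr 2
    · have hz : com (sM n x) (sZ n y) = 0 := com_site_ne h _ _
      have hp : com (sM n x) (sP n y) = 0 := com_site_ne h _ _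
      rw [flip, com_sub_right, com_mul_right, com_mul_right, hz, hp, com_sM_sP, com_sM_sZ]
      simp [smul_mul_assoc]
    · have hz : com (sM n y) (sZ n x) = 0 := com_site_ne h.symm _ _
      have hp : com (sM n y) (sP n x) = 0 := com_site_ne h.symm _ _
      rw [flip, com_sub_right, com_mul_right, com_mul_right, hz, hp, com_sM_sP, com_sM_sZ]
      simp [mul_smul_comm]
  · rintro v - ⟨hx, hy⟩
    rw [flip, com_sub_right, com_mul_right, com_mul_right]
    simp only [sP, sM, sZ, com_site_ne hx, com_site_ne hy, mul_zero, zero_mul, add_zero, sub_zero,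
      smul_zero]

theorem com_mag_magnon (u : V → ℂ) : com (mag n V) (magnon n u) = magnon n u := by
  rw [magnon, com_sum_right]
  refine Finset.sum_congr rfl fun v _ => ?_
  rw [com_smul_right, mag_eq, com_sum_left]
  congr 1
  rw [Finset.sum_eq_single v (fun w _ hw => by rw [sZ, sP]; exact com_site_ne hw _ _) (by simp),
    com_sZ_sP]

theorem com_magnon_star {u : V → ℂ} (hu : ∀ v, u v * star (u v) = 1) :
    com (magnon n u) (star (magnon n u)) = (2 : ℂ) • mag n V := by
  rw [star_magnon, magnon, com_sum_left, mag_eq, Finset.smul_sum]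
  refine Finset.sum_congr rfl fun v _ => ?_
  rw [com_smul_left, com_sum_right]
  rw [Finset.sum_eq_single v (fun w _ hw => by
    rw [com_smul_right, sP, sM, com_site_ne hw.symm, smul_zero]) (by simp), com_smul_right,
    com_sP_sM, smul_smul, hu v, one_smul]

theorem gexp_swap (pos : V → Site) (β h : ℝ) {x y : V} (hxy : x ≠ y) :
    gexp (expo n pos β h) (sM n x * sP n y) = gexp (expo n pos β h) (sP n x * sM n y) := by
  rw [← transpose_gexp (expo_transpose pos β h) (sP n x * sM n y), transpose_mul, transpose_sP,
    transpose_sM]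
  congr 1
  exact siteOp_comm hxy _ _

theorem edge_term_le [Nonempty V] (pos : V → Site) (β h : ℝ) (u : V → ℂ) {x y : V} (hxy : x ≠ y) :
    (gexp (expo n pos β h) (com (star (magnon n u)) (-com (bond n x y) (magnon n u)))).re
      ≤ Complex.normSq (u x - u y) * ((n : ℝ) ^ 2 / 2) := by
  have hA := expo_herm (n := n) pos β h
  set A := expo n pos β h
  rw [com_bond_magnon hxy, com_neg_right, com_smul_right, com_magnon_flip hxy, gexp_neg, gexp_smul,
    gexp_add, gexp_smul, gexp_smul, gexp_sub, gexp_add, gexp_smul, gexp_smul,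
    gexp_swap pos β h hxy]
  set z := gexp A (sZ n x * sZ n y) with hz
  set w := gexp A (sP n x * sM n y) with hw
  have e : -((u x - u y) * (star (u x) * (-2 * z - w) + star (u y) * (w + 2 * z)))
      = ((Complex.normSq (u x - u y) : ℝ) : ℂ) * (2 * z + w) := by
    rw [Complex.normSq_eq_conj_mul_self]
    simp only [Complex.star_def, map_sub]
    ring
  rw [e, Complex.re_ofReal_mul]
  refine mul_le_mul_of_nonneg_left ?_ (Complex.normSq_nonneg _)
  have hb := gexp_bond_le hA hxy
  rw [bond_eq, gexp_add, gexp_smul, gexp_add, gexp_swap pos β h hxy, Complex.add_re,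
    show (1 / 2 : ℂ) * (gexp A (sP n x * sM n y) + gexp A (sP n x * sM n y)) = w by
      rw [← hw]; ring] at hb
  have := abs_le.mp (gexp_zz_abs hA x y)
  simp only [Complex.add_re, Complex.mul_re, Complex.re_ofNat, Complex.im_ofNat, zero_mul, sub_zero]
  linarith

theorem sum_edge_le (pos : V → Site) (hpos : Function.Injective pos) (b : V → V → ℝ)
    (f : Fin 3 → ℝ) (hf : ∀ j, 0 ≤ f j)
    (hb : ∀ x y j, pos y = pos x + Pi.single j 1 → b x y ≤ f j) :
    (∑ x : V, ∑ y : V, if Edge pos x y then b x y else 0)
      ≤ (Fintype.card V : ℝ) * ∑ j, f j := by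
  rw [← Finset.card_univ, ← nsmul_eq_mul, ← Finset.sum_const]
  refine Finset.sum_le_sum fun x _ => ?_
  calc (∑ y : V, if Edge pos x y then b x y else 0)
      ≤ ∑ y : V, ∑ j, if pos y = pos x + Pi.single j 1 then f j else 0 := by
        refine Finset.sum_le_sum fun y _ => ?_
        have h0 : ∀ j ∈ Finset.univ, 0 ≤ if pos y = pos x + Pi.single j 1 then f j else 0 := by
          intro j _; split_ifs <;> simp [hf j]
        split_ifs with h
        · obtain ⟨j, hj⟩ := h
          refine (hb x y j hj).trans ?_
          refine le_trans ?_ (Finset.single_le_sum h0 (Finset.mem_univ j))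
          rw [if_pos hj]
        · exact Finset.sum_nonneg h0
    _ = ∑ j, ∑ y : V, if pos y = pos x + Pi.single j 1 then f j else 0 := Finset.sum_comm
    _ ≤ ∑ j, f j := by
        refine Finset.sum_le_sum fun j _ => ?_
        by_cases hex : ∃ y, pos y = pos x + Pi.single j 1
        · obtain ⟨y, hy⟩ := hex
          rw [Finset.sum_eq_single y, if_pos hy]
          · intro z _ hz
            rw [if_neg (fun h => hz (hpos (h.trans hy.symm)))]
          · simp
        · push Not at hex
          rw [Finset.sum_eq_zero fun y _ => if_neg (hex y)]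
          exact hf j

/-- The mean magnetization. -/
def meanM (n : ℕ) (pos : V → Site) (β h : ℝ) : ℝ := (gexp (expo n pos β h) (mag n V)).re

theorem geom_le_coth {a : ℝ} (ha : 0 < a) (K : ℕ) :
    (1 + 2 * ∑ i ∈ Finset.range K, Real.exp (-(2 * a)) ^ (i + 1)) * Real.sinh a ≤ Real.cosh a := by
  set q := Real.exp (-(2 * a)) with hq
  have hq0 : 0 < q := Real.exp_pos _
  have hq1 : q < 1 := Real.exp_lt_one_iff.mpr (by linarith)
  have hs : (∑ i ∈ Finset.range K, q ^ (i + 1)) * (1 - q) ≤ q := by
    have : (∑ i ∈ Finset.range K, q ^ (i + 1)) * (1 - q) = q - q ^ (K + 1) := by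
      induction K with
      | zero => simp
      | succ K ih => rw [Finset.sum_range_succ, add_mul, ih]; ring
    rw [this]; linarith [pow_pos hq0 (K + 1)]
  have e1 : Real.sinh a = Real.exp a / 2 * (1 - q) := by
    rw [Real.sinh_eq, hq, show -(2 * a) = -a + -a by ring, Real.exp_add, Real.exp_neg]
    field_simp
  have e2 : Real.cosh a = Real.exp a / 2 * (1 + q) := by
    rw [Real.cosh_eq, hq, show -(2 * a) = -a + -a by ring, Real.exp_add, Real.exp_neg]
    field_simp
  rw [e1, e2, mul_comm, mul_assoc]
  refine mul_le_mul_of_nonneg_left ?_ (by positivity)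
  nlinarith

/-- The magnon bound for one phase vector `u`. -/
theorem magnon_bound [Nonempty V] (pos : V → Site) (hpos : Function.Injective pos) {β h : ℝ}
    (hβ : 0 < β) (hh : 0 < h) {u : V → ℂ} (hu : ∀ v, u v * star (u v) = 1) (f : Fin 3 → ℝ)
    (hf : ∀ j, 0 ≤ f j)
    (huf : ∀ x y j, pos y = pos x + Pi.single j 1 → Complex.normSq (u x - u y) ≤ f j)
    (hM : 0 < meanM n pos β h) (K : ℕ) :
    2 * meanM n pos β h * (1 + 2 * ∑ i ∈ Finset.range K,
        Real.exp (-(β * ((n : ℝ) ^ 2 / 2 * (Fintype.card V) * (∑ j, f j)) / (2 * meanM n pos β h)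
          + β * h)) ^ (i + 1))
      ≤ (gexp (expo n pos β h)
          (magnon n u * star (magnon n u) + star (magnon n u) * magnon n u)).re := by
  set A := expo n pos β h with hA
  set M := meanM n pos β h with hMdef
  set X := magnon n u with hX
  set B := (n : ℝ) ^ 2 / 2 * (Fintype.card V) * (∑ j, f j) with hB
  have hB0 : 0 ≤ B := mul_nonneg (by positivity) (Finset.sum_nonneg fun j _ => hf j)
  set a := β * B / (4 * M) + β * h / 2 with ha
  have ha0 : 0 < a := by positivity
  have h2a : -(β * B / (2 * M) + β * h) = -(2 * a) := by rw [ha]; ring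
  have hXA : X * A - A * X = (β : ℂ) • (com (hamOn n pos - (h : ℂ) • mag n V) X) := by
    rw [hA, expo, com]
    simp only [mul_smul_comm, smul_mul_assoc]
    module
  have hdd : com (star X) (com (hamOn n pos - (h : ℂ) • mag n V) X)
      = (∑ x : V, ∑ y : V, if Edge pos x y then com (star X) (-com (bond n x y) X) else 0)
        + (h : ℂ) • ((2 : ℂ) • mag n V) := by
    have hflip : com (star X) X = -com X (star X) := by rw [com, com, neg_sub]
    rw [com_sub_left, com_smul_left, hX, com_mag_magnon, com_sub_right, com_smul_right, ← hX,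
      hflip, hX, com_magnon_star hu, smul_neg, sub_neg_eq_add, ← hX]
    congr 1
    rw [hamOn_eq, com_neg_left, com_sum_left, com_neg_right, com_sum_right, ← Finset.sum_neg_distrib]
    refine Finset.sum_congr rfl fun x _ => ?_
    rw [com_sum_left, com_sum_right, ← Finset.sum_neg_distrib]
    refine Finset.sum_congr rfl fun y _ => ?_
    split_ifs with he
    · rw [com_neg_right]
    · rw [com_zero_left, com_zero_right, neg_zero]
  have hle : (gexp A (com (star X) (com (hamOn n pos - (h : ℂ) • mag n V) X))).re
      ≤ B + 2 * h * M := by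
    rw [hdd, gexp_add, gexp_smul, gexp_smul, gexp_sum, Complex.add_re, Complex.re_ofReal_mul,
      show ((2 : ℂ) * gexp A (mag n V)).re = 2 * M by
        simp only [Complex.mul_re, Complex.re_ofNat, Complex.im_ofNat, zero_mul, sub_zero]; rfl,
      show h * (2 * M) = 2 * h * M by ring, Complex.re_sum]
    refine add_le_add ?_ le_rfl
    calc (∑ x : V, (gexp A (∑ y : V,
          if Edge pos x y then com (star X) (-com (bond n x y) X) else 0)).re)
        ≤ ∑ x : V, ∑ y : V, if Edge pos x y then
            Complex.normSq (u x - u y) * ((n : ℝ) ^ 2 / 2) else 0 := by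
          refine Finset.sum_le_sum fun x _ => ?_
          rw [gexp_sum, Complex.re_sum]
          refine Finset.sum_le_sum fun y _ => ?_
          split_ifs with he
          · exact edge_term_le pos β h u he.ne
          · simp [gexp_zero]
      _ ≤ (Fintype.card V : ℝ) * ∑ j, f j * ((n : ℝ) ^ 2 / 2) :=
          sum_edge_le pos hpos _ _ (fun j => mul_nonneg (hf j) (by positivity))
            (fun x y j he => mul_le_mul_of_nonneg_right (huf x y j he) (by positivity))
      _ = B := by rw [hB, ← Finset.sum_mul]; ring
  have hcm : (gexp A (X * star X - star X * X)).re = 2 * M := by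
    rw [show X * star X - star X * X = com X (star X) from rfl, hX, com_magnon_star hu, gexp_smul]
    simp only [Complex.mul_re, Complex.re_ofNat, Complex.im_ofNat, zero_mul, sub_zero]
    rfl
  have key := bogoliubov (expo_herm pos β h) X ha0 (by
    rw [hcm, hXA, mul_smul_comm, smul_mul_assoc, ← smul_sub, gexp_smul, Complex.re_ofReal_mul]
    have e : 2 * a * (2 * M) = β * (B + 2 * h * M) := by rw [ha]; field_simp; ring
    rw [e]
    exact mul_le_mul_of_nonneg_left hle hβ.le)
  rw [hcm] at key
  rw [h2a]
  have hs : 0 < Real.sinh a := Real.sinh_pos_iff.mpr ha0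
  refine le_of_mul_le_mul_right ?_ hs
  refine le_trans ?_ key
  rw [mul_assoc]
  exact mul_le_mul_of_nonneg_left (geom_le_coth ha0 K) (by positivity)

end

end Vale.Agent.P361
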