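import Mathlib.Analysis.Normed.Algebra.MatrixExponential
import Mathlib.Analysis.SpecialFunctions.Sqrt
import Mathlib.Analysis.SpecialFunctions.Log.Basic
import Mathlib.Analysis.Calculus.Deriv.Basic
import Mathlib.LinearAlgebra.Matrix.Trace
import Mathlib.Analysis.Complex.Basic

/-!
# The spin-S Heisenberg ferromagnet on boxes in the cubic lattice

`n` stands for `2S`.
-/

namespace Vale.Agent.P361

open Matrix Filter

noncomputable section

/-- A site of the cubic lattice. -/
abbrev Site := Fin 3 → ℤ

/-- The raising operator; basis vector `i` has third spin component `n/2 - i`. -/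
noncomputable def splus (n : ℕ) : Matrix (Fin (n + 1)) (Fin (n + 1)) ℂ :=
  fun a b => if (a : ℕ) + 1 = (b : ℕ) then
    ((Real.sqrt ((b : ℕ) * ((n : ℝ) + 1 - (b : ℕ)))) : ℂ) else 0

/-- The standard spin `n/2` matrices `S¹, S², S³`. -/
noncomputable def spin (n : ℕ) : Fin 3 → Matrix (Fin (n + 1)) (Fin (n + 1)) ℂ :=
  ![(1 / 2 : ℂ) • (splus n + (splus n)ᴴ),
    (-Complex.I / 2) • (splus n - (splus n)ᴴ),
    Matrix.diagonal fun i => (n : ℂ) / 2 - ((i : ℕ) : ℂ)]

/-- A one-site operator acting at `x`, and as the identity at the other sites. -/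
def siteOp {V α : Type} [Fintype V] [DecidableEq V] [DecidableEq α]
    (x : V) (A : Matrix α α ℂ) : Matrix (V → α) (V → α) ℂ :=
  fun σ τ => if ∀ y, y ≠ x → σ y = τ y then A (σ x) (τ x) else 0

/-- The coupling `S_x ⬝ S_y`. -/
noncomputable def bond (n : ℕ) {V : Type} [Fintype V] [DecidableEq V] (x y : V) :
    Matrix (V → Fin (n + 1)) (V → Fin (n + 1)) ℂ :=
  ∑ a : Fin 3, siteOp x (spin n a) * siteOp y (spin n a)

/-- Heisenberg Hamiltonian for sites `V` with lattice positions `pos`; an edge is a pair
`(x, y)` with `pos y = pos x + e_j`, so every nearest-neighbour edge occurs once. -/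
noncomputable def hamOn (n : ℕ) {V : Type} [Fintype V] [DecidableEq V] (pos : V → Site) :
    Matrix (V → Fin (n + 1)) (V → Fin (n + 1)) ℂ :=
  -∑ x : V, ∑ y : V, if ∃ j, pos y = pos x + Pi.single j 1 then bond n x y else 0

/-- Total third component of the spin. -/
noncomputable def mag (n : ℕ) (V : Type) [Fintype V] [DecidableEq V] :
    Matrix (V → Fin (n + 1)) (V → Fin (n + 1)) ℂ :=
  ∑ x : V, siteOp x (spin n 2)

/-- The box `{-N, ..., N}³`, with free boundary conditions. -/
def cube (N : ℕ) : Finset Site :=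
  Fintype.piFinset fun _ => Finset.Icc (-(N : ℤ)) (N : ℤ)

/-- `log Tr exp (-β (H - h M))`. -/
noncomputable def logPartition (n : ℕ) {V : Type} [Fintype V] [DecidableEq V] (pos : V → Site)
    (β h : ℝ) : ℝ :=
  Real.log (NormedSpace.exp ((-(β : ℂ)) • (hamOn n pos - (h : ℂ) • mag n V))).trace.re

/-- The finite-volume pressure of the box `{-N, ..., N}³`. -/
noncomputable def pressureN (n : ℕ) (β h : ℝ) (N : ℕ) : ℝ :=
  logPartition n (fun x : {x // x ∈ cube N} => (x : Site)) β h / (β * (cube N).card)

/-- The infinite-volume pressure. -/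
noncomputable def pressure (n : ℕ) (β h : ℝ) : ℝ :=
  limUnder atTop (pressureN n β h)

/-- The spontaneous magnetization: the right derivative of the pressure at zero field. -/
noncomputable def magnetization (n : ℕ) (β : ℝ) : ℝ :=
  derivWithin (pressure n β) (Set.Ioi 0) 0

end

end Vale.Agent.P361
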