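import Vale.Agent.P361.Fourier
import Mathlib.LinearAlgebra.Matrix.Kronecker
import Mathlib.Logic.Equiv.Finset

/-! # Relabelling and splitting of the partition function -/

namespace Vale.Agent.P361

open Matrix Kronecker

noncomputable section

theorem logTr_submatrix {ι κ : Type} [Fintype ι] [DecidableEq ι] [Fintype κ] [DecidableEq κ]
    (e : κ ≃ ι) {A : Matrix ι ι ℂ} (hA : A.IsHermitian) :
    logTr (A.submatrix e e) = logTr A := by
  obtain ⟨U, d, hU, hd⟩ := herm_decomp hA
  have hs : star (U.submatrix e e) = (star U).submatrix e e := rfl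
  have hU2 : star (U.submatrix e e) * U.submatrix e e = 1 := by
    rw [hs, submatrix_mul_equiv, hU, submatrix_one_equiv]
  rw [logTr_of_conj (U.submatrix e e) hU2 (d ∘ e), logTr_of_conj U hU d hd]
  · rw [← e.sum_comp (fun i => Real.exp (d i))]; rfl
  · rw [hs, hd, show diagonal (fun i => (((d ∘ e) i : ℝ) : ℂ))
        = (diagonal fun i => (d i : ℂ)).submatrix e e from by rw [submatrix_diagonal_equiv]; rfl,
      submatrix_mul_equiv, submatrix_mul_equiv]

theorem logTr_kron {ι κ : Type} [Fintype ι] [DecidableEq ι] [Nonempty ι] [Fintype κ] [DecidableEq κ]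
    [Nonempty κ] {A : Matrix ι ι ℂ} {B : Matrix κ κ ℂ} (hA : A.IsHermitian) (hB : B.IsHermitian) :
    logTr (A ⊗ₖ (1 : Matrix κ κ ℂ) + (1 : Matrix ι ι ℂ) ⊗ₖ B) = logTr A + logTr B := by
  obtain ⟨U, a, hU, hAd⟩ := herm_decomp hA
  obtain ⟨V, b, hV, hBd⟩ := herm_decomp hB
  have hs : star (U ⊗ₖ V) = star U ⊗ₖ star V := conjTranspose_kronecker U V
  have hW : star (U ⊗ₖ V) * (U ⊗ₖ V) = 1 := by
    rw [hs, ← mul_kronecker_mul, hU, hV, one_kronecker_one]
  rw [logTr_of_conj (U ⊗ₖ V) hW (fun p => a p.1 + b p.2), logTr_of_conj U hU a hAd,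
    logTr_of_conj V hV b hBd, ← Real.log_mul (by positivity) (by positivity)]
  · congr 1
    rw [Fintype.sum_prod_type, Finset.sum_mul]
    simp only [Finset.mul_sum, Real.exp_add]
  · have hd : diagonal (fun p : ι × κ => ((a p.1 + b p.2 : ℝ) : ℂ))
        = diagonal (fun i => (a i : ℂ)) ⊗ₖ (1 : Matrix κ κ ℂ)
          + (1 : Matrix ι ι ℂ) ⊗ₖ diagonal (fun j => (b j : ℂ)) := by
      rw [← diagonal_one, ← diagonal_one, diagonal_kronecker_diagonal, diagonal_kronecker_diagonal,
        diagonal_add]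
      congr 1; funext p; simp
    rw [hd, hs, mul_add, add_mul, ← mul_kronecker_mul, ← mul_kronecker_mul, ← mul_kronecker_mul,
      ← mul_kronecker_mul, ← hAd, ← hBd, mul_one, mul_one, mul_eq_one_comm.mp hV,
      mul_eq_one_comm.mp hU]

variable {n : ℕ} {V W : Type} [Fintype V] [DecidableEq V] [Fintype W] [DecidableEq W]

/-- Relabelling of configurations. -/
def cfgEquiv (n : ℕ) (e : V ≃ W) : (V → Fin (n + 1)) ≃ (W → Fin (n + 1)) :=
  Equiv.arrowCongr e (Equiv.refl _)

theorem siteOp_relabel (e : V ≃ W) (v : V) (A : Matrix (Fin (n + 1)) (Fin (n + 1)) ℂ) :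
    siteOp v A = (siteOp (e v) A).submatrix (cfgEquiv n e) (cfgEquiv n e) := by
  ext σ τ
  simp only [siteOp, submatrix_apply, cfgEquiv, Equiv.arrowCongr_apply, Equiv.coe_refl,
    Function.comp_apply, id_eq, Equiv.symm_apply_apply]
  by_cases h : ∀ y, y ≠ v → σ y = τ y
  · rw [if_pos h, if_pos]
    intro w hw
    exact h _ (fun hh => hw (by rw [← hh, Equiv.apply_symm_apply]))
  · rw [if_neg h, if_neg]
    intro h'
    refine h fun y hy => ?_
    have := h' (e y) (fun hh => hy (e.injective hh))
    simpa using this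

/-- `log Z` depends on the positions only through the edges. -/
theorem logPartition_relabel (e : V ≃ W) (p : V → Site) (q : W → Site)
    (h : ∀ x y, Edge p x y ↔ Edge q (e x) (e y)) (β t : ℝ) :
    logPartition n p β t = logPartition n q β t := by
  set E := cfgEquiv n e with hE
  have hb : ∀ x y : V, bond n x y = (bond n (e x) (e y)).submatrix E E := by
    intro x y
    simp only [bond, Fin.sum_univ_three, submatrix_add, Pi.add_apply, siteOp_relabel e,
      ← submatrix_mul_equiv _ _ E E E]
    rfl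
  have hm : mag n V = (mag n W).submatrix E E := by
    rw [mag, mag, ← e.sum_comp (fun w : W => siteOp w (spin n 2))]
    ext σ τ
    simp only [submatrix_apply, Matrix.sum_apply]
    refine Finset.sum_congr rfl fun v _ => ?_
    rw [siteOp_relabel e v]; rfl
  have hh : hamOn n p = (hamOn n q).submatrix E E := by
    ext σ τ
    simp only [hamOn_eq, submatrix_apply, Matrix.neg_apply, Matrix.sum_apply]
    congr 1
    rw [← e.sum_comp]
    refine Finset.sum_congr rfl fun x _ => ?_
    rw [← e.sum_comp]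
    refine Finset.sum_congr rfl fun y _ => ?_
    by_cases hxy : Edge p x y
    · rw [if_pos hxy, if_pos ((h x y).mp hxy), hb]; rfl
    · rw [if_neg hxy, if_neg (fun h' => hxy ((h x y).mpr h'))]; rfl
  rw [logPartition_eq, logPartition_eq, ← logTr_submatrix E (expo_herm q β t)]
  congr 1
  rw [expo, expo, hh, hm]
  ext σ τ
  simp

/-- The split of configurations on a disjoint union. -/
def splitCfg (n : ℕ) (V W : Type) :
    (V ⊕ W → Fin (n + 1)) ≃ (V → Fin (n + 1)) × (W → Fin (n + 1)) :=
  Equiv.sumArrowEquivProdArrow V W (Fin (n + 1))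

/-- Operators of the first summand. -/
def liftL (W : Type) [Fintype W] [DecidableEq W] (X : Op n V) : Op n (V ⊕ W) :=
  (X ⊗ₖ (1 : Op n W)).submatrix (splitCfg n V W) (splitCfg n V W)

/-- Operators of the second summand. -/
def liftR (V : Type) [Fintype V] [DecidableEq V] (Y : Op n W) : Op n (V ⊕ W) :=
  ((1 : Op n V) ⊗ₖ Y).submatrix (splitCfg n V W) (splitCfg n V W)

theorem siteOp_inl (v : V) (A : Matrix (Fin (n + 1)) (Fin (n + 1)) ℂ) :
    siteOp (Sum.inl v : V ⊕ W) A = liftL W (siteOp v A) := by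
  ext σ τ
  simp only [siteOp, liftL, submatrix_apply, kronecker_apply, splitCfg,
    Equiv.sumArrowEquivProdArrow, Equiv.coe_fn_mk, one_apply, Function.comp_apply]
  by_cases h : ∀ y, y ≠ (Sum.inl v : V ⊕ W) → σ y = τ y
  · rw [if_pos h, if_pos (fun y hy => h (Sum.inl y) (by simp [hy])),
      if_pos (funext fun w => h (Sum.inr w) (by simp) : σ ∘ Sum.inr = τ ∘ Sum.inr), mul_one]
  · rw [if_neg h]
    by_cases h1 : ∀ y, y ≠ v → σ (Sum.inl y) = τ (Sum.inl y)
    · rw [if_pos h1, if_neg, mul_zero]
      intro h2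
      apply h
      rintro (y | w) hy
      · exact h1 y (fun hh => hy (by rw [hh]))
      · exact congrFun h2 w
    · rw [if_neg h1, zero_mul]

theorem siteOp_inr (w : W) (A : Matrix (Fin (n + 1)) (Fin (n + 1)) ℂ) :
    siteOp (Sum.inr w : V ⊕ W) A = liftR V (siteOp w A) := by
  ext σ τ
  simp only [siteOp, liftR, submatrix_apply, kronecker_apply, splitCfg,
    Equiv.sumArrowEquivProdArrow, Equiv.coe_fn_mk, one_apply, Function.comp_apply]
  by_cases h : ∀ y, y ≠ (Sum.inr w : V ⊕ W) → σ y = τ y
  · rw [if_pos h, if_pos (fun y hy => h (Sum.inr y) (by simp [hy])),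
      if_pos (funext fun v => h (Sum.inl v) (by simp) : σ ∘ Sum.inl = τ ∘ Sum.inl), one_mul]
  · rw [if_neg h]
    by_cases h1 : ∀ y, y ≠ w → σ (Sum.inr y) = τ (Sum.inr y)
    · rw [if_pos h1, if_neg, zero_mul]
      intro h2
      apply h
      rintro (v | y) hy
      · exact congrFun h2 v
      · exact h1 y (fun hh => hy (by rw [hh]))
    · rw [if_neg h1, mul_zero]

theorem liftL_add (X Y : Op n V) : liftL W (X + Y) = liftL W X + liftL W Y := by
  simp [liftL, add_kronecker, submatrix_add]
theorem liftR_add (X Y : Op n W) : liftR V (X + Y) = liftR V X + liftR V Y := by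
  simp [liftR, kronecker_add, submatrix_add]
theorem liftL_mul (X Y : Op n V) : liftL W (X * Y) = liftL W X * liftL W Y := by
  rw [liftL, liftL, liftL, submatrix_mul_equiv, ← mul_kronecker_mul, one_mul]
theorem liftR_mul (X Y : Op n W) : liftR V (X * Y) = liftR V X * liftR V Y := by
  rw [liftR, liftR, liftR, submatrix_mul_equiv, ← mul_kronecker_mul, one_mul]
theorem liftL_zero : liftL (n := n) W (0 : Op n V) = 0 := by
  simp [liftL, zero_kronecker]
theorem liftR_zero : liftR (n := n) V (0 : Op n W) = 0 := by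
  simp [liftR, kronecker_zero]

/-- `liftL` as an additive homomorphism. -/
def liftLHom (n : ℕ) (V W : Type) [Fintype V] [DecidableEq V] [Fintype W] [DecidableEq W] :
    Op n V →+ Op n (V ⊕ W) :=
  { toFun := liftL W, map_zero' := liftL_zero, map_add' := liftL_add }

/-- `liftR` as an additive homomorphism. -/
def liftRHom (n : ℕ) (V W : Type) [Fintype V] [DecidableEq V] [Fintype W] [DecidableEq W] :
    Op n W →+ Op n (V ⊕ W) :=
  { toFun := liftR V, map_zero' := liftR_zero, map_add' := liftR_add }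

theorem bond_inl (x y : V) : bond n (Sum.inl x : V ⊕ W) (Sum.inl y) = liftL W (bond n x y) := by
  simp only [bond, Fin.sum_univ_three, liftL_add, liftL_mul, siteOp_inl]

theorem bond_inr (x y : W) : bond n (Sum.inr x : V ⊕ W) (Sum.inr y) = liftR V (bond n x y) := by
  simp only [bond, Fin.sum_univ_three, liftR_add, liftR_mul, siteOp_inr]

theorem edge_inl (p : V → Site) (q : W → Site) (x y : V) :
    Edge (Sum.elim p q) (Sum.inl x) (Sum.inl y) ↔ Edge p x y := Iff.rfl

theorem edge_inr (p : V → Site) (q : W → Site) (x y : W) :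
    Edge (Sum.elim p q) (Sum.inr x) (Sum.inr y) ↔ Edge q x y := Iff.rfl

/-- The edges between the two summands. -/
def crossTerms (n : ℕ) (p : V → Site) (q : W → Site) : Op n (V ⊕ W) :=
  (∑ x : V, ∑ y : W, if Edge (Sum.elim p q) (Sum.inl x) (Sum.inr y)
      then bond n (Sum.inl x : V ⊕ W) (Sum.inr y) else 0)
  + ∑ y : W, ∑ x : V, if Edge (Sum.elim p q) (Sum.inr y) (Sum.inl x)
      then bond n (Sum.inr y : V ⊕ W) (Sum.inl x) else 0

theorem hamOn_sum (p : V → Site) (q : W → Site) :
    hamOn n (Sum.elim p q)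
      = liftL W (hamOn n p) + liftR V (hamOn n q) - crossTerms n p q := by
  have hl : liftL W (hamOn n p) = -∑ x : V, ∑ y : V,
      if Edge (Sum.elim p q) (Sum.inl x) (Sum.inl y) then bond n (Sum.inl x : V ⊕ W) (Sum.inl y)
        else 0 := by
    show liftLHom n V W (hamOn n p) = _
    rw [hamOn_eq, map_neg, map_sum]
    congr 1
    refine Finset.sum_congr rfl fun x _ => ?_
    rw [map_sum]
    refine Finset.sum_congr rfl fun y _ => ?_
    by_cases h : Edge p x y
    · rw [if_pos h, if_pos ((edge_inl p q x y).mpr h), bond_inl]; rfl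
    · rw [if_neg h, if_neg (fun h' => h ((edge_inl p q x y).mp h')), map_zero]
  have hr : liftR V (hamOn n q) = -∑ x : W, ∑ y : W,
      if Edge (Sum.elim p q) (Sum.inr x) (Sum.inr y) then bond n (Sum.inr x : V ⊕ W) (Sum.inr y)
        else 0 := by
    show liftRHom n V W (hamOn n q) = _
    rw [hamOn_eq, map_neg, map_sum]
    congr 1
    refine Finset.sum_congr rfl fun x _ => ?_
    rw [map_sum]
    refine Finset.sum_congr rfl fun y _ => ?_
    by_cases h : Edge q x y
    · rw [if_pos h, if_pos ((edge_inr p q x y).mpr h), bond_inr]; rfl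
    · rw [if_neg h, if_neg (fun h' => h ((edge_inr p q x y).mp h')), map_zero]
  rw [hl, hr, hamOn_eq, crossTerms]
  simp only [Fintype.sum_sum_type, Finset.sum_add_distrib]
  abel

theorem mag_sum : mag n (V ⊕ W) = liftL W (mag n V) + liftR V (mag n W) := by
  show _ = liftLHom n V W (mag n V) + liftRHom n V W (mag n W)
  rw [mag, mag, mag, map_sum, map_sum, Fintype.sum_sum_type]
  congr 1
  · exact Finset.sum_congr rfl fun x _ => siteOp_inl x _
  · exact Finset.sum_congr rfl fun x _ => siteOp_inr x _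

theorem logPartition_split (p : V → Site) (q : W → Site) (β t : ℝ) (hβ : 0 ≤ β) :
    |logPartition n (Sum.elim p q) β t - (logPartition n p β t + logPartition n q β t)|
      ≤ β * (2 * ((n : ℝ) + 1) ^ 2) *
        ((∑ x : V, ∑ y : W, if Edge (Sum.elim p q) (Sum.inl x) (Sum.inr y) then (1 : ℝ) else 0)
        + ∑ y : W, ∑ x : V, if Edge (Sum.elim p q) (Sum.inr y) (Sum.inl x) then (1 : ℝ) else 0) := by
  set B : Op n (V ⊕ W) := liftL W (expo n p β t) + liftR V (expo n q β t) with hBdef
  have hB : B = ((expo n p β t) ⊗ₖ (1 : Op n W) + (1 : Op n V) ⊗ₖ (expo n q β t)).submatrix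
      (splitCfg n V W) (splitCfg n V W) := by
    rw [hBdef, liftL, liftR]; rfl
  have hherm : ((expo n p β t) ⊗ₖ (1 : Op n W) + (1 : Op n V) ⊗ₖ (expo n q β t)).IsHermitian := by
    rw [IsHermitian, conjTranspose_add, conjTranspose_kronecker, conjTranspose_kronecker,
      conjTranspose_one, conjTranspose_one, (expo_herm p β t).eq, (expo_herm q β t).eq]
  have hBl : logTr B = logPartition n p β t + logPartition n q β t := by
    rw [hB, logTr_submatrix _ hherm, logTr_kron (expo_herm p β t) (expo_herm q β t)]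
    rfl
  have smulL : ∀ (c : ℂ) (X : Op n V), liftL W (c • X) = c • liftL W X := by
    intro c X; simp [liftL, smul_kronecker, submatrix_smul]
  have smulR : ∀ (c : ℂ) (X : Op n W), liftR V (c • X) = c • liftR V X := by
    intro c X; simp [liftR, kronecker_smul, submatrix_smul]
  have hdiff : expo n (Sum.elim p q) β t - B = (β : ℂ) • crossTerms n p q := by
    rw [hBdef, expo, hamOn_sum, mag_sum, expo, expo, sub_eq_add_neg (hamOn n p),
      sub_eq_add_neg (hamOn n q), ← neg_smul (t : ℂ) (mag n V), ← neg_smul (t : ℂ) (mag n W)]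
    simp only [smulL, smulR, liftL_add, liftR_add]
    module
  rw [← hBl, logPartition_eq]
  refine logTr_le_of_bound (by rw [hB]; exact hherm.submatrix _) (expo_herm _ β t) _ ?_
  intro D hD
  rw [hdiff, gexp_smul, Complex.re_ofReal_mul, abs_mul, abs_of_nonneg hβ, mul_assoc]
  refine mul_le_mul_of_nonneg_left ?_ hβ
  rw [crossTerms, gexp_add, Complex.add_re, mul_add]
  have hterm : ∀ (a b : V ⊕ W),
      |(gexp D (if Edge (Sum.elim p q) a b then bond n a b else 0)).re|
        ≤ 2 * ((n : ℝ) + 1) ^ 2 * (if Edge (Sum.elim p q) a b then (1 : ℝ) else 0) := by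
    intro a b
    split_ifs with he
    · rw [mul_one]; exact gexp_bond_abs hD he.ne
    · simp [gexp_zero]
  refine (abs_add_le _ _).trans (add_le_add ?_ ?_)
  · rw [gexp_sum, Complex.re_sum, Finset.mul_sum]
    refine (Finset.abs_sum_le_sum_abs _ _).trans (Finset.sum_le_sum fun x _ => ?_)
    rw [gexp_sum, Complex.re_sum, Finset.mul_sum]
    exact (Finset.abs_sum_le_sum_abs _ _).trans (Finset.sum_le_sum fun y _ => hterm _ _)
  · rw [gexp_sum, Complex.re_sum, Finset.mul_sum]
    refine (Finset.abs_sum_le_sum_abs _ _).trans (Finset.sum_le_sum fun x _ => ?_)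
    rw [gexp_sum, Complex.re_sum, Finset.mul_sum]
    exact (Finset.abs_sum_le_sum_abs _ _).trans (Finset.sum_le_sum fun y _ => hterm _ _)

end

end Vale.Agent.P361
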