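import Vale.Agent.P361.Commutator
import Mathlib.Analysis.SpecialFunctions.Complex.Log
import Mathlib.Algebra.Field.GeomSum

/-! # Summing the magnon inequality over wave vectors -/

namespace Vale.Agent.P361

open Matrix

noncomputable section

/-- The sites of the cube. -/
abbrev CubeV (N : ℕ) := {x : Site // x ∈ cube N}

theorem card_cube (N : ℕ) : (cube N).card = (2 * N + 1) ^ 3 := by
  rw [cube, Fintype.card_piFinset]
  simp only [Int.card_Icc, Finset.prod_const, Finset.card_univ, Fintype.card_fin]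
  congr 1
  omega

theorem card_CubeV (N : ℕ) : Fintype.card (CubeV N) = (2 * N + 1) ^ 3 := by
  rw [Fintype.card_coe, card_cube]

instance (N : ℕ) : Nonempty (CubeV N) := by
  refine ⟨⟨0, ?_⟩⟩
  simp [cube, Fintype.mem_piFinset]

/-- Wave angle of the index `i`. -/
def angle (L i : ℕ) : ℝ := 2 * Real.pi * i / L

/-- The phase `exp(i k·x)`. -/
def phase (N : ℕ) (k : Fin 3 → Fin (2 * N + 1)) (x : Site) : ℂ :=
  Complex.exp (((∑ j, angle (2 * N + 1) (k j) * (x j : ℝ) : ℝ) : ℂ) * Complex.I)

theorem phase_unit (N : ℕ) (k : Fin 3 → Fin (2 * N + 1)) (x : Site) :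
    phase N k x * star (phase N k x) = 1 := by
  rw [phase, Complex.star_def, Complex.mul_conj, Complex.normSq_eq_norm_sq,
    Complex.norm_exp_ofReal_mul_I]
  simp

theorem phase_edge (N : ℕ) (k : Fin 3 → Fin (2 * N + 1)) (x y : Site) (j : Fin 3)
    (h : y = x + Pi.single j 1) :
    Complex.normSq (phase N k x - phase N k y)
      = 2 * (1 - Real.cos (angle (2 * N + 1) (k j))) := by
  have hs : ∑ i, angle (2 * N + 1) (k i) * (y i : ℝ)
      = (∑ i, angle (2 * N + 1) (k i) * (x i : ℝ)) + angle (2 * N + 1) (k j) := by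
    subst h
    simp only [Pi.add_apply, Int.cast_add, mul_add, Finset.sum_add_distrib, add_right_inj]
    rw [Finset.sum_eq_single j]
    · simp
    · intro i _ hi; simp [hi]
    · simp
  rw [phase, phase, hs]
  generalize (∑ i, angle (2 * N + 1) (k i) * (x i : ℝ)) = t
  generalize angle (2 * N + 1) (k j) = s
  simp only [Complex.normSq_apply, Complex.sub_re, Complex.sub_im, Complex.exp_ofReal_mul_I_re,
    Complex.exp_ofReal_mul_I_im, Real.cos_add, Real.sin_add]
  nlinarith [Real.sin_sq_add_cos_sq t, Real.sin_sq_add_cos_sq s]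

theorem sum_exp_root (L : ℕ) (hL : 0 < L) (m : ℤ) (hm : m.natAbs < L) :
    ∑ i : Fin L, Complex.exp (((angle L i * m : ℝ) : ℂ) * Complex.I) = if m = 0 then (L : ℂ) else 0 := by
  split_ifs with h0
  · subst h0; simp
  · set w := Complex.exp (((2 * Real.pi * m / L : ℝ) : ℂ) * Complex.I) with hw
    have hterm : ∀ i : Fin L, Complex.exp (((angle L i * m : ℝ) : ℂ) * Complex.I) = w ^ (i : ℕ) := by
      intro i
      rw [hw, ← Complex.exp_nat_mul, angle]
      congr 1; push_cast; ring
    have hLc : (L : ℂ) ≠ 0 := by exact_mod_cast hL.ne'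
    have hwL : w ^ L = 1 := by
      rw [hw, ← Complex.exp_nat_mul, Complex.exp_eq_one_iff]
      exact ⟨m, by push_cast; field_simp⟩
    have hw1 : w ≠ 1 := by
      rw [hw, Ne, Complex.exp_eq_one_iff]
      rintro ⟨q, hq⟩
      have h2 := congrArg Complex.im hq
      simp at h2
      field_simp at h2
      have h3 : m = q * L := by
        have h4 : (m : ℝ) = (q : ℝ) * L := by linarith
        exact_mod_cast h4
      rcases eq_or_ne q 0 with hq0 | hq0
      · simp [hq0] at h3; exact h0 h3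
      · have := congrArg Int.natAbs h3
        rw [Int.natAbs_mul, Int.natAbs_natCast] at this
        have : 1 ≤ q.natAbs := by omega
        nlinarith
    simp only [hterm]
    rw [Fin.sum_univ_eq_sum_range (fun i => w ^ i), geom_sum_eq hw1, hwL, sub_self, zero_div]

theorem phase_orth (N : ℕ) (x y : CubeV N) :
    ∑ k : Fin 3 → Fin (2 * N + 1), phase N k x * star (phase N k y)
      = if x = y then (((2 * N + 1) ^ 3 : ℕ) : ℂ) else 0 := by
  have hmul : ∀ k : Fin 3 → Fin (2 * N + 1), phase N k x * star (phase N k y)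
      = ∏ j, Complex.exp (((angle (2 * N + 1) (k j) * ((x.1 j - y.1 j : ℤ)) : ℝ) : ℂ)
          * Complex.I) := by
    intro k
    rw [phase, phase, Complex.star_def, ← Complex.exp_conj, ← Complex.exp_add, ← Complex.exp_sum]
    congr 1
    simp only [map_mul, Complex.conj_ofReal, Complex.conj_I]
    rw [← Finset.sum_mul]
    push_cast
    simp only [mul_sub, Finset.sum_sub_distrib]
    ring
  have hm : ∀ j, ((x.1 j - y.1 j : ℤ)).natAbs < 2 * N + 1 := by
    intro j
    have hx := Fintype.mem_piFinset.mp x.2 j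
    have hy := Fintype.mem_piFinset.mp y.2 j
    rw [Finset.mem_Icc] at hx hy
    omega
  simp only [hmul]
  rw [← Fintype.prod_sum (fun j (i : Fin (2 * N + 1)) =>
    Complex.exp (((angle (2 * N + 1) i * ((x.1 j - y.1 j : ℤ)) : ℝ) : ℂ) * Complex.I))]
  rw [Finset.prod_congr rfl fun j _ => sum_exp_root (2 * N + 1) (by omega) _ (hm j)]
  split_ifs with h
  · subst h; simp
  · obtain ⟨j, hj⟩ : ∃ j, x.1 j ≠ y.1 j := by
      by_contra hh
      push Not at hh
      exact h (Subtype.ext (funext hh))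
    exact Finset.prod_eq_zero (Finset.mem_univ j) (if_neg (by omega))

theorem sum_bilinear {V κ R : Type} [Fintype V] [DecidableEq V] [Fintype κ] [Ring R] [Algebra ℂ R]
    (a b : κ → V → ℂ) (c : ℂ) (P Q : V → R)
    (h : ∀ v w, ∑ k, a k v * b k w = if v = w then c else 0) :
    ∑ k, (∑ v, a k v • P v) * (∑ w, b k w • Q w) = c • ∑ v, P v * Q v := by
  calc ∑ k, (∑ v, a k v • P v) * (∑ w, b k w • Q w)
      = ∑ k, ∑ v, ∑ w, (a k v * b k w) • (P v * Q w) := by
        refine Finset.sum_congr rfl fun k _ => ?_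
        rw [Finset.sum_mul]
        refine Finset.sum_congr rfl fun v _ => ?_
        rw [Finset.mul_sum]
        refine Finset.sum_congr rfl fun w _ => ?_
        rw [smul_mul_smul_comm]
    _ = ∑ v, ∑ w, (∑ k, a k v * b k w) • (P v * Q w) := by
        rw [Finset.sum_comm]
        refine Finset.sum_congr rfl fun v _ => ?_
        rw [Finset.sum_comm]
        exact Finset.sum_congr rfl fun w _ => (Finset.sum_smul).symm
    _ = c • ∑ v, P v * Q v := by
        simp only [h, ite_smul, zero_smul, Finset.sum_ite_eq, Finset.mem_univ, if_true,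
          Finset.smul_sum]

theorem sum_magnon (n N : ℕ) :
    ∑ k : Fin 3 → Fin (2 * N + 1),
      (magnon n (fun v : CubeV N => phase N k v) * star (magnon n (fun v : CubeV N => phase N k v))
        + star (magnon n (fun v : CubeV N => phase N k v)) * magnon n (fun v : CubeV N => phase N k v))
      = (((2 * N + 1) ^ 3 : ℕ) : ℂ) • ∑ v : CubeV N, (sP n v * sM n v + sM n v * sP n v) := by
  have h1 := fun k : Fin 3 → Fin (2 * N + 1) => star_magnon (n := n) (fun v : CubeV N => phase N k v)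
  have hP : ∀ k : Fin 3 → Fin (2 * N + 1), magnon n (fun v : CubeV N => phase N k v)
      = ∑ v : CubeV N, phase N k v • sP n v := fun k => rfl
  rw [Finset.sum_congr rfl (fun k _ => by rw [h1 k, hP k])]
  rw [Finset.sum_add_distrib,
    sum_bilinear (fun k (v : CubeV N) => phase N k v) (fun k (v : CubeV N) => star (phase N k v))
      (((2 * N + 1) ^ 3 : ℕ) : ℂ) (sP n) (sM n) (fun v w => phase_orth N v w),
    sum_bilinear (fun k (v : CubeV N) => star (phase N k v)) (fun k (v : CubeV N) => phase N k v)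
      (((2 * N + 1) ^ 3 : ℕ) : ℂ) (sM n) (sP n) (fun v w => ?_),
    ← smul_add, ← Finset.sum_add_distrib]
  rw [show (∑ k, star (phase N k v) * phase N k w) = ∑ k, phase N k w * star (phase N k v) from
    Finset.sum_congr rfl fun k _ => mul_comm _ _, phase_orth N w v]
  by_cases hvw : v = w
  · rw [if_pos hvw, if_pos hvw.symm]
  · rw [if_neg hvw, if_neg (fun h => hvw h.symm)]

theorem site_quadratic_le {n : ℕ} {V : Type} [Fintype V] [DecidableEq V] {A : Op n V}
    (hA : A.IsHermitian) (v : V) :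
    (gexp A (sP n v * sM n v + sM n v * sP n v)).re
      ≤ (n : ℝ) ^ 2 - 2 * ((n : ℝ) - 1) * (gexp A (sZ n v)).re := by
  have key : 0 ≤ (gexp A ((((n : ℝ) ^ 2 : ℝ) : ℂ) • 1
      - ((2 * ((n : ℝ) - 1) : ℝ) : ℂ) • sZ n v - (sP n v * sM n v + sM n v * sP n v))).re := by
    have e : ((((n : ℝ) ^ 2 : ℝ) : ℂ) • (1 : Op n V)
        - ((2 * ((n : ℝ) - 1) : ℝ) : ℂ) • sZ n v - (sP n v * sM n v + sM n v * sP n v))
        = diagonal fun σ : V → Fin (n + 1) =>
          ((2 * ((σ v : ℕ) : ℝ) * (((σ v : ℕ) : ℝ) - 1) : ℝ) : ℂ) := by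
      rw [sP, sM, siteOp_mul, siteOp_mul, ← siteOp_add, splus_plus_minus, splus_minus_plus,
        diagonal_add, siteOp_diagonal, sZ_eq_diag, ← diagonal_one, ← diagonal_smul, ← diagonal_smul,
        diagonal_sub, diagonal_sub]
      congr 1; funext σ
      simp; ring
    rw [e]
    refine gexp_diagonal_nonneg hA _ fun σ => ?_
    rcases Nat.eq_zero_or_pos (σ v : ℕ) with h | h
    · simp [h]
    · have h1 : (1 : ℝ) ≤ ((σ v : ℕ) : ℝ) := by exact_mod_cast h
      exact mul_nonneg (by linarith) (by linarith)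
  rw [gexp_sub, gexp_sub, gexp_smul, gexp_smul, gexp_one hA, mul_one, Complex.sub_re,
    Complex.sub_re, Complex.ofReal_re, Complex.re_ofReal_mul] at key
  linarith

/-- The discrete magnon sum. -/
def riemannG (L : ℕ) (t : ℝ) : ℝ :=
  (∑ i : Fin L, Real.exp (-(t * (1 - Real.cos (angle L i))))) / L

/-- The magnetization per site. -/
def mu (n N : ℕ) (β h : ℝ) : ℝ :=
  meanM n (fun x : CubeV N => (x : Site)) β h / (Fintype.card (CubeV N))

/-- The finite-volume magnon bound. -/
theorem finite_volume_bound (n N : ℕ) {β h m₀ : ℝ} (hβ : 0 < β) (hh : 0 < h) (hm₀ : 0 < m₀)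
    (hμ : m₀ ≤ mu n N β h) (K : ℕ) :
    4 * m₀ * ∑ i ∈ Finset.range K, Real.exp (-(((i : ℝ) + 1) * β * h))
        * riemannG (2 * N + 1) (((i : ℝ) + 1) * β * (n : ℝ) ^ 2 / (2 * m₀)) ^ 3
      ≤ (n : ℝ) * ((n : ℝ) - 2 * mu n N β h) := by
  set pos := fun x : CubeV N => (x : Site) with hpos
  set A := expo n pos β h with hA
  set M := meanM n pos β h with hMdef
  set c : ℝ := (Fintype.card (CubeV N) : ℝ) with hc
  have hc0 : 0 < c := by rw [hc]; exact_mod_cast Fintype.card_pos
  set μ := mu n N β h with hμdef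
  have hMμ : M = μ * c := by rw [hμdef, mu]; field_simp; rfl
  have hμ0 : 0 < μ := hm₀.trans_le hμ
  have hM : 0 < M := by rw [hMμ]; positivity
  set L := 2 * N + 1 with hL
  set e : ℕ → (Fin 3 → Fin L) → ℝ := fun i k => Real.exp (-(β * h)) ^ (i + 1) *
    ∏ j, Real.exp (-((((i : ℝ) + 1) * β * (n : ℝ) ^ 2 / (2 * m₀))
      * (1 - Real.cos (angle L (k j))))) with he
  have per : ∀ k : Fin 3 → Fin L, 2 * M * (1 + 2 * ∑ i ∈ Finset.range K, e i k)
      ≤ (gexp A (magnon n (fun v : CubeV N => phase N k v)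
            * star (magnon n (fun v : CubeV N => phase N k v))
          + star (magnon n (fun v : CubeV N => phase N k v))
            * magnon n (fun v : CubeV N => phase N k v))).re := by
    intro k
    set f : Fin 3 → ℝ := fun j => 2 * (1 - Real.cos (angle L (k j))) with hfdef
    have hf0 : ∀ j, 0 ≤ f j := fun j => by
      simp only [hfdef]; linarith [Real.cos_le_one (angle L (k j))]
    refine le_trans ?_ (magnon_bound pos Subtype.val_injective hβ hh
      (u := fun v : CubeV N => phase N k v) (fun v => phase_unit N k v) f hf0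
      (fun x y j hxy => (phase_edge N k x y j hxy).le) hM K)
    refine mul_le_mul_of_nonneg_left (add_le_add le_rfl (mul_le_mul_of_nonneg_left ?_ (by norm_num)))
      (by positivity)
    refine Finset.sum_le_sum fun i _ => ?_
    simp only [he]
    rw [← Real.exp_sum, ← Real.exp_nat_mul, ← Real.exp_nat_mul, ← Real.exp_add]
    apply Real.exp_le_exp.mpr
    have hM' : meanM n pos β h = μ * c := hMμ
    rw [hM', Finset.sum_neg_distrib, ← Finset.mul_sum, hfdef]
    simp only [← Finset.mul_sum]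
    set s := ∑ j, (1 - Real.cos (angle L (k j))) with hs
    have hs0 : 0 ≤ s := Finset.sum_nonneg fun j _ => by linarith [Real.cos_le_one (angle L (k j))]
    have h1 : β * ((n : ℝ) ^ 2 / 2 * c * (2 * s)) / (2 * (μ * c)) = β * (n : ℝ) ^ 2 * s / (2 * μ) := by
      field_simp
    rw [h1]
    have h2 : β * (n : ℝ) ^ 2 * s / (2 * μ) ≤ β * (n : ℝ) ^ 2 * s / (2 * m₀) :=
      div_le_div_of_nonneg_left (by positivity) (by positivity) (by linarith)
    have h3 : ((i + 1 : ℕ) : ℝ) * (β * (n : ℝ) ^ 2 * s / (2 * μ))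
        ≤ ((i + 1 : ℕ) : ℝ) * (β * (n : ℝ) ^ 2 * s / (2 * m₀)) :=
      mul_le_mul_of_nonneg_left h2 (by positivity)
    have h4 : ((i + 1 : ℕ) : ℝ) * (β * (n : ℝ) ^ 2 * s / (2 * m₀))
        = ((i : ℝ) + 1) * β * (n : ℝ) ^ 2 / (2 * m₀) * s := by push_cast; ring
    rw [h4] at h3
    linarith
  have hsum := Finset.sum_le_sum (s := Finset.univ) (fun k _ => per k)
  rw [← Complex.re_sum, ← gexp_sum, sum_magnon, gexp_smul, show ∀ (q : ℕ) (z : ℂ), ((q : ℂ) * z).re = (q : ℝ) * z.re from fun q z => by simp, gexp_sum,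
    Complex.re_sum, ← card_CubeV, ← hc, ← Finset.mul_sum, Finset.sum_add_distrib, ← Finset.mul_sum,
    Finset.sum_comm] at hsum
  have hk : ∀ i ∈ Finset.range K, (∑ k : Fin 3 → Fin L, e i k)
      = c * (Real.exp (-(((i : ℝ) + 1) * β * h))
          * riemannG L (((i : ℝ) + 1) * β * (n : ℝ) ^ 2 / (2 * m₀)) ^ 3) := by
    intro i _
    simp only [he]
    rw [← Finset.mul_sum, ← Fintype.prod_sum (fun _ (q : Fin L) =>
      Real.exp (-((((i : ℝ) + 1) * β * (n : ℝ) ^ 2 / (2 * m₀)) * (1 - Real.cos (angle L q))))),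
      Finset.prod_const, Finset.card_univ, Fintype.card_fin, ← Real.exp_nat_mul, riemannG, hc,
      card_CubeV]
    rw [show ((i + 1 : ℕ) : ℝ) * -(β * h) = -(((i : ℝ) + 1) * β * h) by push_cast; ring]
    push_cast
    rw [hL]; push_cast
    field_simp
  rw [Finset.sum_congr rfl hk, ← Finset.mul_sum] at hsum
  simp only [Finset.sum_const, Finset.card_univ, Fintype.card_fun, Fintype.card_fin,
    nsmul_eq_mul, mul_one] at hsum
  rw [show ((L ^ 3 : ℕ) : ℝ) = c by rw [hc, card_CubeV]] at hsum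
  have hG : (∑ v : CubeV N, (gexp A (sP n v * sM n v + sM n v * sP n v)).re)
      ≤ c * (n : ℝ) ^ 2 - 2 * ((n : ℝ) - 1) * M := by
    refine (Finset.sum_le_sum fun v _ => site_quadratic_le (expo_herm pos β h) v).trans (le_of_eq ?_)
    rw [Finset.sum_sub_distrib, Finset.sum_const, Finset.card_univ, nsmul_eq_mul, ← hc,
      ← Finset.mul_sum, hMdef, meanM, mag_eq, gexp_sum, Complex.re_sum]
  set R := ∑ i ∈ Finset.range K, Real.exp (-(((i : ℝ) + 1) * β * h))
        * riemannG L (((i : ℝ) + 1) * β * (n : ℝ) ^ 2 / (2 * m₀)) ^ 3 with hR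
  have hR0 : 0 ≤ R := Finset.sum_nonneg fun i _ => by rw [riemannG]; positivity
  have h5 : c * c * (2 * μ * (1 + 2 * R)) ≤ c * c * ((n : ℝ) ^ 2 - 2 * ((n : ℝ) - 1) * μ) := by
    have := mul_le_mul_of_nonneg_left hG hc0.le
    rw [hMμ] at this hsum
    nlinarith
  have h6 := le_of_mul_le_mul_left h5 (by positivity)
  nlinarith [mul_le_mul_of_nonneg_right hμ hR0]

end

end Vale.Agent.P361
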