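import Vale.Agent.P361.Factor
import Mathlib.Analysis.Convex.Deriv
import Mathlib.Analysis.SpecificLimits.Basic
import Mathlib.Data.Int.Interval

/-! # The infinite-volume pressure -/

namespace Vale.Agent.P361

open Matrix Filter Topology

noncomputable section

theorem approx_additive {f : ℕ → ℝ} {D : ℝ}
    (h : ∀ a b, 0 < a → 0 < b → |f (a + b) - f a - f b| ≤ D) {a b : ℕ} (ha : 0 < a) (hb : 0 < b) :
    |f a / a - f b / b| ≤ D / a + D / b := by
  have hD : 0 ≤ D := (abs_nonneg _).trans (h 1 1 one_pos one_pos)
  have key : ∀ x : ℕ, 0 < x → ∀ m : ℕ, |f ((m + 1) * x) - ((m : ℝ) + 1) * f x| ≤ m * D := by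
    intro x hx m
    induction m with
    | zero => simp
    | succ m ih =>
      have h1 := abs_le.mp (h ((m + 1) * x) x (by positivity) hx)
      rw [show (m + 1 + 1) * x = (m + 1) * x + x by ring]
      have h2 := abs_le.mp ih
      rw [abs_le]; push_cast; constructor <;> linarith
  obtain ⟨a', rfl⟩ := Nat.exists_eq_succ_of_ne_zero ha.ne'
  obtain ⟨b', rfl⟩ := Nat.exists_eq_succ_of_ne_zero hb.ne'
  have k1 := abs_le.mp (key (b' + 1) (by omega) a')
  have k2 := abs_le.mp (key (a' + 1) (by omega) b')
  rw [mul_comm (b' + 1)] at k2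
  simp only [Nat.succ_eq_add_one]
  push_cast
  have hA : (0 : ℝ) < (a' : ℝ) + 1 := by positivity
  have hB : (0 : ℝ) < (b' : ℝ) + 1 := by positivity
  rw [div_sub_div _ _ hA.ne' hB.ne', div_add_div _ _ hA.ne' hB.ne', abs_div,
    abs_of_pos (mul_pos hA hB)]
  refine div_le_div_of_nonneg_right ?_ (mul_pos hA hB).le
  rw [abs_le]
  constructor <;> nlinarith [k1.1, k1.2, k2.1, k2.2]

/-- A box of lattice sites. -/
def box (o : Site) (d : Fin 3 → ℕ) : Finset Site :=
  Fintype.piFinset fun j => Finset.Ico (o j) (o j + d j)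

theorem mem_box {o : Site} {d : Fin 3 → ℕ} {x : Site} :
    x ∈ box o d ↔ ∀ j, o j ≤ x j ∧ x j < o j + d j := by
  simp [box, Fintype.mem_piFinset]

/-- `log Z` of a box. -/
def boxF (n : ℕ) (β t : ℝ) (o : Site) (d : Fin 3 → ℕ) : ℝ :=
  logPartition n (fun x : {x // x ∈ box o d} => (x : Site)) β t

theorem boxF_translate (n : ℕ) (β t : ℝ) (o o' : Site) (d : Fin 3 → ℕ) :
    boxF n β t o d = boxF n β t o' d := by
  let e : {x // x ∈ box o d} ≃ {x // x ∈ box o' d} :=
    { toFun := fun x => ⟨x.1 - o + o', by
        rw [mem_box]; intro j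
        have := mem_box.mp x.2 j
        simp only [Pi.add_apply, Pi.sub_apply]; omega⟩
      invFun := fun x => ⟨x.1 - o' + o, by
        rw [mem_box]; intro j
        have := mem_box.mp x.2 j
        simp only [Pi.add_apply, Pi.sub_apply]; omega⟩
      left_inv := fun x => by apply Subtype.ext; simp
      right_inv := fun x => by apply Subtype.ext; simp }
  refine logPartition_relabel e _ _ (fun x y => ?_) β t
  simp only [Edge, e, Equiv.coe_fn_mk]
  refine exists_congr fun j => ⟨fun h => ?_, fun h => ?_⟩
  · rw [h]; abel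
  · funext i
    have := congrFun h i
    simp only [Pi.add_apply, Pi.sub_apply] at this ⊢
    linarith

theorem boxF_split (n : ℕ) {β : ℝ} (hβ : 0 ≤ β) (t : ℝ) (o : Site) (d : Fin 3 → ℕ) (j : Fin 3)
    (a b : ℕ) :
    |boxF n β t o (Function.update d j (a + b))
        - boxF n β t o (Function.update d j a)
        - boxF n β t (o + Pi.single j (a : ℤ)) (Function.update d j b)|
      ≤ β * (2 * ((n : ℝ) + 1) ^ 2) * ∏ i, (Function.update d j 1 i : ℝ) := by
  set s := box o (Function.update d j a) with hs
  set u := box (o + Pi.single j (a : ℤ)) (Function.update d j b) with hu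
  have coords : ∀ i : Fin 3, i = j ∨ i ≠ j := fun i => eq_or_ne i j
  have hdisj : Disjoint s u := by
    rw [Finset.disjoint_left]
    intro x hx hx'
    have h1 := mem_box.mp hx j
    have h2 := mem_box.mp hx' j
    simp at h1 h2
    omega
  have hunion : ∀ x, x ∈ box o (Function.update d j (a + b)) ↔ x ∈ s ∪ u := by
    intro x
    rw [Finset.mem_union, hs, hu, mem_box, mem_box, mem_box]
    constructor
    · intro h
      have hj := h j
      simp at hj
      by_cases hlt : x j < o j + a
      · left; intro i
        rcases coords i with rfl | hi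
        · simp; omega
        · have := h i; simp [Function.update_of_ne hi] at this ⊢; omega
      · right; intro i
        rcases coords i with rfl | hi
        · simp; omega
        · have := h i; simp [Function.update_of_ne hi, hi] at this ⊢; omega
    · rintro (h | h) i
      · rcases coords i with rfl | hi
        · have := h i; simp at this ⊢; omega
        · have := h i; simp [Function.update_of_ne hi] at this ⊢; omega
      · rcases coords i with rfl | hi
        · have := h i; simp at this ⊢; omega
        · have := h i; simp [Function.update_of_ne hi, hi] at this ⊢; omega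
  let e : {x // x ∈ s} ⊕ {x // x ∈ u} ≃ {x // x ∈ box o (Function.update d j (a + b))} :=
    (Equiv.Finset.union s u hdisj).trans (Equiv.subtypeEquivRight fun x => (hunion x).symm)
  have hval : ∀ z, ((e z : {x // x ∈ box o (Function.update d j (a + b))}) : Site)
      = Sum.elim (fun x : {x // x ∈ s} => (x : Site)) (fun x : {x // x ∈ u} => (x : Site)) z := by
    rintro (z | z) <;> rfl
  have hrel : logPartition n
      (Sum.elim (fun x : {x // x ∈ s} => (x : Site)) (fun x : {x // x ∈ u} => (x : Site))) β t
      = boxF n β t o (Function.update d j (a + b)) := by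
    refine logPartition_relabel e _ _ (fun x y => ?_) β t
    unfold Edge
    simp only [hval]
  have hsplit := logPartition_split (n := n) (fun x : {x // x ∈ s} => (x : Site))
    (fun x : {x // x ∈ u} => (x : Site)) β t hβ
  rw [hrel] at hsplit
  rw [sub_sub]
  refine hsplit.trans (mul_le_mul_of_nonneg_left ?_ (by positivity))
  set pp := Sum.elim (fun x : {x // x ∈ s} => (x : Site)) (fun x : {x // x ∈ u} => (x : Site))
  have hzero : (∑ y : {x // x ∈ u}, ∑ x : {x // x ∈ s},
      if Edge pp (Sum.inr y) (Sum.inl x) then (1 : ℝ) else 0) = 0 := by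
    refine Finset.sum_eq_zero fun y _ => Finset.sum_eq_zero fun x _ => if_neg ?_
    rintro ⟨i, hi⟩
    have h1 := mem_box.mp x.2 j
    have h2 := mem_box.mp y.2 j
    have h3 := congrFun hi j
    simp [pp, Pi.single_apply] at h1 h2 h3
    split_ifs at h3 <;> omega
  rw [hzero, add_zero]
  set face := box (o + Pi.single j ((a : ℤ) - 1)) (Function.update d j 1) with hface
  have hcard : ((face.card : ℕ) : ℝ) = ∏ i, (Function.update d j 1 i : ℝ) := by
    rw [hface, box, Fintype.card_piFinset]
    push_cast
    refine Finset.prod_congr rfl fun i _ => ?_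
    rw [Int.card_Ico]; simp
  rw [← hcard]
  calc (∑ x : {x // x ∈ s}, ∑ y : {x // x ∈ u},
        if Edge pp (Sum.inl x) (Sum.inr y) then (1 : ℝ) else 0)
      ≤ ∑ x : {x // x ∈ s}, if (x : Site) ∈ face then (1 : ℝ) else 0 := by
        refine Finset.sum_le_sum fun x _ => ?_
        have hsame : ∀ y : {x // x ∈ u}, Edge pp (Sum.inl x) (Sum.inr y) →
            (y : Site) = (x : Site) + Pi.single j 1 ∧ (x : Site) ∈ face := by
          rintro y ⟨i, hi⟩
          have h1 := mem_box.mp x.2 j
          have h2 := mem_box.mp y.2 j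
          have h3 := congrFun hi j
          simp [pp, Pi.single_apply] at h1 h2 h3
          have hij : j = i := by
            by_contra hne
            rw [if_neg hne] at h3
            omega
          subst hij
          refine ⟨hi, ?_⟩
          rw [hface, mem_box]
          intro k
          rcases coords k with rfl | hk
          · simp at h3 ⊢; omega
          · have := mem_box.mp x.2 k
            simp [Function.update_of_ne hk, hk] at this ⊢; omega
        by_cases hx : (x : Site) ∈ face
        · rw [if_pos hx]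
          by_cases hex : ∃ y : {x // x ∈ u}, Edge pp (Sum.inl x) (Sum.inr y)
          · obtain ⟨y, hy⟩ := hex
            rw [Finset.sum_eq_single y]
            · rw [if_pos hy]
            · intro z _ hz
              rw [if_neg fun hh => hz (Subtype.ext ((hsame z hh).1.trans (hsame y hy).1.symm))]
            · simp
          · push Not at hex
            rw [Finset.sum_eq_zero fun y _ => if_neg (hex y)]
            norm_num
        · rw [if_neg hx, Finset.sum_eq_zero fun y _ => if_neg fun hh => hx (hsame y hh).2]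
    _ ≤ (face.card : ℝ) := by
        rw [Finset.univ_eq_attach, Finset.sum_attach s (fun x => if x ∈ face then (1 : ℝ) else 0),
          Finset.sum_ite_mem, Finset.sum_const, nsmul_eq_mul, mul_one]
        exact_mod_cast Finset.card_le_card Finset.inter_subset_right

theorem boxF_coord (n : ℕ) {β : ℝ} (hβ : 0 ≤ β) (t : ℝ) (d : Fin 3 → ℕ) (hd : ∀ i, 0 < d i)
    (j : Fin 3) {a b : ℕ} (ha : 0 < a) (hb : 0 < b) :
    |boxF n β t 0 (Function.update d j a) / ∏ i, (Function.update d j a i : ℝ)
      - boxF n β t 0 (Function.update d j b) / ∏ i, (Function.update d j b i : ℝ)|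
      ≤ β * (2 * ((n : ℝ) + 1) ^ 2) * (1 / a + 1 / b) := by
  set P := ∏ i, (Function.update d j 1 i : ℝ) with hP
  have hP0 : 0 < P := Finset.prod_pos fun i _ => by
    rcases eq_or_ne i j with rfl | hi
    · simp
    · simp [Function.update_of_ne hi, hd i]
  have hprod : ∀ c : ℕ, ∏ i, (Function.update d j c i : ℝ) = P * c := by
    intro c
    rw [hP, ← Finset.mul_prod_erase Finset.univ _ (Finset.mem_univ j),
      ← Finset.mul_prod_erase Finset.univ (fun i => (Function.update d j 1 i : ℝ))
        (Finset.mem_univ j)]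
    simp only [Function.update_self, Nat.cast_one, one_mul]
    rw [mul_comm]
    congr 1
    refine Finset.prod_congr rfl fun i hi => ?_
    rw [Function.update_of_ne (Finset.ne_of_mem_erase hi),
      Function.update_of_ne (Finset.ne_of_mem_erase hi)]
  have := approx_additive (f := fun c => boxF n β t 0 (Function.update d j c) / P)
    (D := β * (2 * ((n : ℝ) + 1) ^ 2)) ?_ ha hb
  · rw [hprod, hprod]
    simp only [div_div] at this
    refine this.trans (le_of_eq ?_)
    ring
  · intro x y _ _
    rw [← sub_div, ← sub_div, abs_div, abs_of_pos hP0, div_le_iff₀ hP0]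
    have h := boxF_split n hβ t 0 d j x y
    rwa [boxF_translate n β t _ 0 (Function.update d j y)] at h

theorem boxF_cube (n : ℕ) {β : ℝ} (hβ : 0 ≤ β) (t : ℝ) {a b : ℕ} (ha : 0 < a) (hb : 0 < b) :
    |boxF n β t 0 (fun _ => a) / ((a : ℝ) ^ 3) - boxF n β t 0 (fun _ => b) / ((b : ℝ) ^ 3)|
      ≤ 3 * (β * (2 * ((n : ℝ) + 1) ^ 2) * (1 / a + 1 / b)) := by
  have e0 : Function.update ![a, a, a] 0 b = ![b, a, a] := by funext i; fin_cases i <;> simp
  have e0' : Function.update ![a, a, a] 0 a = ![a, a, a] := by funext i; fin_cases i <;> simp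
  have e1 : Function.update ![b, a, a] 1 b = ![b, b, a] := by funext i; fin_cases i <;> simp
  have e1' : Function.update ![b, a, a] 1 a = ![b, a, a] := by funext i; fin_cases i <;> simp
  have e2 : Function.update ![b, b, a] 2 b = ![b, b, b] := by funext i; fin_cases i <;> simp
  have e2' : Function.update ![b, b, a] 2 a = ![b, b, a] := by funext i; fin_cases i <;> simp
  have pos3 : ∀ p q r : ℕ, 0 < p → 0 < q → 0 < r → ∀ i, 0 < ![p, q, r] i := by
    intro p q r hp hq hr i
    fin_cases i <;> assumption
  have s0 := boxF_coord n hβ t ![a, a, a] (pos3 a a a ha ha ha) 0 ha hb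
  have s1 := boxF_coord n hβ t ![b, a, a] (pos3 b a a hb ha ha) 1 ha hb
  have s2 := boxF_coord n hβ t ![b, b, a] (pos3 b b a hb hb ha) 2 ha hb
  rw [e0, e0'] at s0
  rw [e1, e1'] at s1
  rw [e2, e2'] at s2
  have hc : ∀ c : ℕ, (fun _ : Fin 3 => c) = ![c, c, c] := by
    intro c; funext i; fin_cases i <;> simp
  have hp : ∀ c : ℕ, ∏ i, ((![c, c, c] i : ℕ) : ℝ) = (c : ℝ) ^ 3 := by
    intro c; rw [← hc]; simp
  rw [hp a] at s0
  rw [hp b] at s2
  rw [hc a, hc b]
  rw [abs_le] at s0 s1 s2 ⊢
  constructor <;> linarith [s0.1, s0.2, s1.1, s1.2, s2.1, s2.2]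

theorem pressureN_eq (n : ℕ) (β t : ℝ) (N : ℕ) :
    pressureN n β t N = boxF n β t 0 (fun _ => 2 * N + 1) / ((2 * N + 1 : ℕ) : ℝ) ^ 3 / β := by
  have hc : ∀ x, x ∈ cube N ↔ x ∈ box (fun _ => -(N : ℤ)) (fun _ => 2 * N + 1) := by
    intro x
    rw [mem_box, cube, Fintype.mem_piFinset]
    refine forall_congr' fun j => ?_
    rw [Finset.mem_Icc]; push_cast; omega
  have : logPartition n (fun x : {x // x ∈ cube N} => (x : Site)) β t
      = boxF n β t (fun _ => -(N : ℤ)) (fun _ => 2 * N + 1) := by
    unfold boxF
    let e : {x // x ∈ cube N} ≃ {x // x ∈ box (fun _ => -(N : ℤ)) (fun _ => 2 * N + 1)} :=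
      Equiv.subtypeEquivRight hc
    have he : ∀ z, ((e z : {x // x ∈ box (fun _ => -(N : ℤ)) (fun _ => 2 * N + 1)}) : Site) = z.1 :=
      fun z => Equiv.subtypeEquivRight_apply_coe hc z
    refine logPartition_relabel (n := n) e (fun x => (x : Site)) (fun x => (x : Site))
      (fun x y => ?_) β t
    simp only [Edge, he]
  rw [pressureN, this, boxF_translate n β t _ 0, card_cube, div_div]
  push_cast
  ring_nf

theorem pressure_tendsto (n : ℕ) {β : ℝ} (hβ : 0 < β) (t : ℝ) :
    Tendsto (pressureN n β t) atTop (𝓝 (pressure n β t)) := by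
  refine CauchySeq.tendsto_limUnder ?_
  set C := 6 * (2 * ((n : ℝ) + 1) ^ 2) with hC
  refine cauchySeq_of_le_tendsto_0 (fun N => C / ((N : ℝ) + 1)) ?_ ?_
  · intro i k N hi hk
    rw [Real.dist_eq, pressureN_eq, pressureN_eq, ← sub_div, abs_div, abs_of_pos hβ,
      div_le_iff₀ hβ]
    refine (boxF_cube n hβ.le t (by omega) (by omega)).trans ?_
    have h1 : ∀ q : ℕ, N ≤ q → 1 / ((2 * q + 1 : ℕ) : ℝ) ≤ 1 / ((N : ℝ) + 1) := by
      intro q hq
      refine one_div_le_one_div_of_le (by positivity) ?_
      push_cast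
      have : (N : ℝ) ≤ q := by exact_mod_cast hq
      linarith [show (0 : ℝ) ≤ q by positivity]
    calc 3 * (β * (2 * ((n : ℝ) + 1) ^ 2) * (1 / ((2 * i + 1 : ℕ) : ℝ) + 1 / ((2 * k + 1 : ℕ) : ℝ)))
        ≤ 3 * (β * (2 * ((n : ℝ) + 1) ^ 2) * (1 / ((N : ℝ) + 1) + 1 / ((N : ℝ) + 1))) := by
          exact mul_le_mul_of_nonneg_left
            (mul_le_mul_of_nonneg_left (add_le_add (h1 i hi) (h1 k hk)) (by positivity)) (by norm_num)
      _ = C / ((N : ℝ) + 1) * β := by rw [hC]; ring
  · exact tendsto_const_nhds.div_atTop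
      (tendsto_atTop_add_const_right _ 1 tendsto_natCast_atTop_atTop)

theorem pressureN_tangent (n N : ℕ) {β : ℝ} (hβ : 0 < β) (t t' : ℝ) :
    pressureN n β t N + mu n N β t * (t' - t) ≤ pressureN n β t' N := by
  set pos := fun x : CubeV N => (x : Site)
  have hpb := logTr_add_gexp_le (expo_herm (n := n) pos β t) (expo_herm (n := n) pos β t')
  have hd : expo n pos β t' - expo n pos β t = ((β * (t' - t) : ℝ) : ℂ) • mag n (CubeV N) := by
    rw [expo, expo]; push_cast; module
  rw [hd, gexp_smul, Complex.re_ofReal_mul] at hpb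
  have hc : (0 : ℝ) < β * (cube N).card := by rw [card_cube]; positivity
  have key : pressureN n β t N + mu n N β t * (t' - t)
      = (logTr (expo n pos β t) + β * (t' - t) * (gexp (expo n pos β t) (mag n (CubeV N))).re)
        / (β * (cube N).card) := by
    have hc' : ((cube N).card : ℝ) ≠ 0 := by rw [card_cube]; positivity
    rw [pressureN, mu, meanM, Fintype.card_coe, logPartition_eq]
    field_simp
    ring
  rw [key, pressureN, logPartition_eq]
  exact div_le_div_of_nonneg_right hpb hc.le

theorem pressureN_convex (n N : ℕ) {β : ℝ} (hβ : 0 < β) :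
    ConvexOn ℝ Set.univ (fun t => pressureN n β t N) := by
  refine ⟨convex_univ, fun x _ y _ a b ha hb hab => ?_⟩
  simp only [smul_eq_mul]
  set z := a * x + b * y
  have h1 := mul_le_mul_of_nonneg_left (pressureN_tangent n N hβ z x) ha
  have h2 := mul_le_mul_of_nonneg_left (pressureN_tangent n N hβ z y) hb
  have : a * (x - z) + b * (y - z) = 0 := by
    have hb' : b = 1 - a := by linarith
    simp only [z, hb']; ring
  have h3 := congrArg (mu n N β z * ·) this
  have h4 : (a + b) * pressureN n β z N = pressureN n β z N := by rw [hab, one_mul]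
  simp only [mul_zero] at h3
  linarith

theorem pressure_convex (n : ℕ) {β : ℝ} (hβ : 0 < β) : ConvexOn ℝ Set.univ (pressure n β) := by
  refine ⟨convex_univ, fun x _ y _ a b ha hb hab => ?_⟩
  exact le_of_tendsto_of_tendsto' (pressure_tendsto n hβ _)
    (((pressure_tendsto n hβ x).const_smul a).add ((pressure_tendsto n hβ y).const_smul b))
    (fun N => (pressureN_convex n N hβ).2 (Set.mem_univ x) (Set.mem_univ y) ha hb hab)

theorem magnetization_diff (n : ℕ) {β : ℝ} (hβ : 0 < β) :
    DifferentiableWithinAt ℝ (pressure n β) (Set.Ioi 0) 0 :=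
  (pressure_convex n hβ).differentiableWithinAt_Ioi_of_mem_interior (by simp)

theorem mu_eventually (n : ℕ) {β h : ℝ} (hβ : 0 < β) (hh : 0 < h) {m' : ℝ}
    (hm : m' < magnetization n β) : ∀ᶠ N in atTop, m' < mu n N β h := by
  have hs : magnetization n β ≤ (pressure n β h - pressure n β 0) / h := by
    have := (pressure_convex n hβ).rightDeriv_le_slope_of_mem_interior (x := 0) (y := h)
      (by simp) (Set.mem_univ h) hh
    rw [slope_def_field, sub_zero] at this
    exact this
  have hlim : Tendsto (fun N => (pressureN n β h N - pressureN n β 0 N) / h) atTop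
      (𝓝 ((pressure n β h - pressure n β 0) / h)) :=
    ((pressure_tendsto n hβ h).sub (pressure_tendsto n hβ 0)).div_const h
  filter_upwards [hlim.eventually (eventually_gt_nhds (hm.trans_le hs))] with N hN
  refine hN.trans_le ?_
  rw [div_le_iff₀ hh]
  linarith [pressureN_tangent n N hβ h 0]

end

end Vale.Agent.P361
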